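import Mathlib

-- ▼ part R055/Sparse
section

/-!
Row 55 (S0076): the sparse entropy bound and the final deduction of the counting lemma
(helper212).
-/

set_option autoImplicit false

namespace Crest.Agent.R055.Sparse

open Finset Real
set_option linter.unusedSectionVars false
open scoped Pointwise BigOperators

variable {G E : Type} [Group G] [Fintype G] [Fintype E] [DecidableEq E] [MulAction G E]

/-- The (finite) orbit of a subset of `E`. -/
noncomputable def orb (G : Type) {E : Type} [Group G] [Fintype G] [DecidableEq E] [MulAction G E]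
    (A : Finset E) : Finset (Finset E) :=
  Finset.univ.image (fun g : G => A.image (fun x => g • x))

theorem mem_orb (A S : Finset E) : S ∈ orb G A ↔ ∃ g : G, g • A = S := by
  simp only [orb, mem_image, mem_univ, true_and]
  rfl


theorem orb_pos (A : Finset E) : 0 < (orb G A).card := by
  apply Finset.card_pos.mpr
  exact ⟨A, (mem_orb A A).mpr ⟨1, one_smul _ _⟩⟩

/-- `v S ≤ 1 / N` for an invariant law. -/
theorem orb_mul_le (v : Finset E → ℝ) (h0 : ∀ S, 0 ≤ v S) (h1 : ∑ S, v S = 1)
    (hinv : ∀ (g : G) (S : Finset E), v (g • S) = v S) (S : Finset E) :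
    ((orb G S).card : ℝ) * v S ≤ 1 := by
  have h : ∑ T ∈ orb G S, v T = ((orb G S).card : ℝ) * v S := by
    rw [← nsmul_eq_mul]
    apply Finset.sum_eq_card_nsmul
    intro T hT
    obtain ⟨g, rfl⟩ := (mem_orb S T).mp hT
    exact hinv g S
  rw [← h, ← h1]
  exact Finset.sum_le_sum_of_subset_of_nonneg (Finset.subset_univ _) (fun T _ _ => h0 T)

theorem orb_smul (g : G) (S : Finset E) : orb G (g • S) = orb G S := by
  ext T
  rw [mem_orb, mem_orb]
  constructor
  · rintro ⟨h, rfl⟩
    exact ⟨h * g, mul_smul _ _ _⟩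
  · rintro ⟨h, rfl⟩
    refine ⟨h * g⁻¹, ?_⟩
    rw [mul_smul, inv_smul_smul]


end Crest.Agent.R055.Sparse
end

-- ▼ part R055/Count

/-!
Row 55 (S0076): final deduction of the counting lemma from the bound `Ψ ≤ log 2` (helper212).
-/

set_option autoImplicit false

namespace Crest.Agent.R055.Sparse

open Finset Real
set_option linter.unusedSectionVars false
open scoped Pointwise BigOperators

variable {G E : Type} [Group G] [Fintype G] [Fintype E] [DecidableEq E] [MulAction G E]

/-- The law of `g • Z`, `g` uniform in `G`, `Z` of law `w`. -/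
noncomputable def avg (G : Type) {E : Type} [Group G] [Fintype G] [DecidableEq E] [MulAction G E]
    (w : Finset E → ℝ) (S : Finset E) : ℝ :=
  (∑ g : G, w (g⁻¹ • S)) / (Fintype.card G : ℝ)

/-- entropy of a law supported on a finite set of size `N` is at most `log N`. -/
theorem entropy_le_log_card {α : Type*} [Fintype α] (v : α → ℝ) (h0 : ∀ a, 0 ≤ v a)
    (h1 : ∑ a, v a = 1) (s : Finset α) (hs : ∀ a, v a ≠ 0 → a ∈ s) :
    ∑ a, Real.negMulLog (v a) ≤ Real.log s.card := by
  classical
  have hsum : ∑ a ∈ s, v a = 1 := by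
    rw [← h1]
    apply Finset.sum_subset (Finset.subset_univ _)
    intro a _ ha
    by_contra h
    exact ha (hs a h)
  have hsum2 : ∑ a, Real.negMulLog (v a) = ∑ a ∈ s, Real.negMulLog (v a) := by
    symm
    apply Finset.sum_subset (Finset.subset_univ _)
    intro a _ ha
    have : v a = 0 := by
      by_contra h
      exact ha (hs a h)
    simp [this]
  have hne : s.Nonempty := by
    rw [Finset.nonempty_iff_ne_empty]
    rintro rfl
    simp at hsum
  have hN : (0 : ℝ) < s.card := by exact_mod_cast hne.card_pos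
  have hJ := Real.concaveOn_negMulLog.le_map_sum (t := s) (w := fun _ => (1 : ℝ) / s.card)
    (p := v) (fun _ _ => by positivity) (by
      rw [Finset.sum_const, nsmul_eq_mul]
      field_simp) (fun a _ => by simpa using h0 a)
  simp only [smul_eq_mul] at hJ
  rw [← Finset.mul_sum, ← Finset.mul_sum, hsum, mul_one] at hJ
  rw [hsum2]
  have h2 : Real.negMulLog (1 / (s.card : ℝ)) = Real.log s.card / s.card := by
    rw [Real.negMulLog, one_div, Real.log_inv]
    field_simp
  rw [h2] at hJ
  have h3 := mul_le_mul_of_nonneg_left hJ hN.le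
  field_simp at h3
  linarith

theorem avg_nonneg (w : Finset E → ℝ) (h0 : ∀ S, 0 ≤ w S) (S : Finset E) : 0 ≤ avg G w S := by
  unfold avg
  apply div_nonneg (Finset.sum_nonneg (fun g _ => h0 _)) (by positivity)

theorem sum_avg (w : Finset E → ℝ) (h1 : ∑ S, w S = 1) : ∑ S, avg G w S = 1 := by
  unfold avg
  rw [← Finset.sum_div, Finset.sum_comm]
  have : ∀ g : G, ∑ S : Finset E, w (g⁻¹ • S) = 1 := by
    intro g
    rw [← h1]
    exact Fintype.sum_equiv (MulAction.toPerm (g⁻¹ : G)) _ _ (fun S => rfl)
  simp only [this, Finset.sum_const, Finset.card_univ, nsmul_eq_mul, mul_one]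
  have hG : (0 : ℝ) < Fintype.card G := by exact_mod_cast Fintype.card_pos
  field_simp


/-- **Final deduction.**  If the penalised functional is at least `- log 2` for all laws on subsets
of `H`, then the counting lemma holds with constant `e^c`. -/
theorem counting_of_min (H : Finset E) (p c lam : ℝ) (hp : 0 < p) (hlam : 0 ≤ lam)
    (hmin : ∀ w : Finset E → ℝ, (∀ S, 0 ≤ w S) → ∑ S, w S = 1 → (∀ S, w S ≠ 0 → S ⊆ H) →
      - Real.log 2 ≤ (∑ S, Real.negMulLog (avg G w S) - ∑ S, Real.negMulLog (w S))
        - (Real.log (1 / p) - c) * (∑ S, w S * (S.card : ℝ))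
        - lam * ∑ e : E, (∑ S ∈ Finset.univ.filter (fun S : Finset E => e ∈ S), w S) ^ 2)
    (A : Finset E) :
    ((Finset.univ.filter (fun g : G => A.image (fun x => g • x) ⊆ H)).card : ℝ)
      ≤ 2 * (Real.exp c * p) ^ A.card * (Fintype.card G : ℝ) := by
  classical
  set 𝒜 : Finset (Finset E) := (orb G A).filter (fun S => S ⊆ H) with h𝒜
  by_cases hM : 𝒜.card = 0
  · have : (Finset.univ.filter (fun g : G => A.image (fun x => g • x) ⊆ H)) = ∅ := by
      rw [Finset.filter_eq_empty_iff]
      intro g _ hg
      have : g • A ∈ 𝒜 := by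
        rw [h𝒜, Finset.mem_filter]
        exact ⟨(mem_orb A _).mpr ⟨g, rfl⟩, hg⟩
      rw [Finset.card_eq_zero] at hM
      rw [hM] at this
      exact absurd this (Finset.notMem_empty _)
    rw [this]
    simp only [Finset.card_empty, Nat.cast_zero]
    positivity
  have hMpos : (0 : ℝ) < (𝒜.card : ℝ) := by exact_mod_cast Nat.pos_of_ne_zero hM
  have hNpos : (0 : ℝ) < ((orb G A).card : ℝ) := by exact_mod_cast orb_pos (G := G) A
  have hcard : ∀ S ∈ 𝒜, S.card = A.card := by
    intro S hS
    obtain ⟨g, rfl⟩ := (mem_orb A S).mp (Finset.mem_filter.mp hS).1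
    exact Finset.card_smul_finset g A
  -- the uniform law on the copies of `A` in `H`
  set w : Finset E → ℝ := fun S => if S ∈ 𝒜 then 1 / (𝒜.card : ℝ) else 0 with hw
  have hw0 : ∀ S, 0 ≤ w S := by
    intro S
    simp only [hw]
    split_ifs <;> positivity
  have hw1 : ∑ S, w S = 1 := by
    simp only [hw]
    rw [Finset.sum_ite_mem, Finset.univ_inter, Finset.sum_const, nsmul_eq_mul]
    field_simp
  have hws : ∀ S, w S ≠ 0 → S ∈ 𝒜 := by
    intro S hS
    by_contra h
    exact hS (by simp [hw, h])
  have hm := hmin w hw0 hw1 (fun S hS => (Finset.mem_filter.mp (hws S hS)).2)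
  have hE1 : ∑ S, Real.negMulLog (w S) = Real.log 𝒜.card := by
    have : ∀ S, Real.negMulLog (w S) = if S ∈ 𝒜 then Real.log 𝒜.card / 𝒜.card else 0 := by
      intro S
      simp only [hw]
      split_ifs
      · rw [Real.negMulLog, one_div, Real.log_inv]
        field_simp
      · simp
    simp only [this]
    rw [Finset.sum_ite_mem, Finset.univ_inter, Finset.sum_const, nsmul_eq_mul]
    field_simp
  have hE2 : ∑ S, Real.negMulLog (avg G w S) ≤ Real.log (orb G A).card := by
    apply entropy_le_log_card _ (avg_nonneg w hw0) (sum_avg w hw1)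
    intro S hS
    unfold avg at hS
    have : ∃ g : G, w (g⁻¹ • S) ≠ 0 := by
      by_contra hcon
      push Not at hcon
      apply hS
      rw [Finset.sum_eq_zero (fun g _ => hcon g), zero_div]
    obtain ⟨g, hg⟩ := this
    have h1 := (Finset.mem_filter.mp (hws _ hg)).1
    rw [mem_orb] at h1 ⊢
    obtain ⟨h, hh⟩ := h1
    exact ⟨g * h, by rw [mul_smul, hh, smul_inv_smul]⟩
  have hE3 : ∑ S, w S * (S.card : ℝ) = A.card := by
    have : ∀ S, w S * (S.card : ℝ) = w S * (A.card : ℝ) := by
      intro S
      by_cases hS : w S = 0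
      · simp [hS]
      · rw [hcard S (hws S hS)]
    simp only [this]
    rw [← Finset.sum_mul, hw1, one_mul]
  have hE4 : 0 ≤ lam * ∑ e : E, (∑ S ∈ Finset.univ.filter (fun S : Finset E => e ∈ S), w S) ^ 2 :=
    mul_nonneg hlam (Finset.sum_nonneg (fun e _ => sq_nonneg _))
  rw [hE1, hE3] at hm
  have hfin : Real.log 𝒜.card ≤ Real.log 2 + (c - Real.log (1 / p)) * A.card
      + Real.log (orb G A).card := by
    nlinarith
  have hfin2 : (𝒜.card : ℝ) ≤ 2 * (Real.exp c * p) ^ A.card * ((orb G A).card : ℝ) := by
    have h1 : Real.log (2 * (Real.exp c * p) ^ A.card * ((orb G A).card : ℝ))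
        = Real.log 2 + (c - Real.log (1 / p)) * A.card + Real.log (orb G A).card := by
      rw [Real.log_mul (by positivity) hNpos.ne', Real.log_mul (by norm_num) (by positivity),
        Real.log_pow, Real.log_mul (Real.exp_pos c).ne' hp.ne', Real.log_exp, one_div,
        Real.log_inv]
      ring
    rw [← h1] at hfin
    exact (Real.log_le_log_iff hMpos (by positivity)).mp hfin
  -- orbit–stabiliser
  set K : ℕ := (Finset.univ.filter (fun g : G => g • A = A)).card with hK
  have hfib : ∀ S ∈ orb G A, (Finset.univ.filter (fun g : G => g • A = S)).card = K := by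
    intro S hS
    obtain ⟨h, rfl⟩ := (mem_orb A S).mp hS
    rw [hK]
    apply Finset.card_bij (fun g _ => h⁻¹ * g)
    · intro g hg
      simp only [Finset.mem_filter, Finset.mem_univ, true_and] at hg ⊢
      rw [mul_smul, hg, inv_smul_smul]
    · intro g _ g' _ hgg
      exact mul_left_cancel hgg
    · intro g hg
      simp only [Finset.mem_filter, Finset.mem_univ, true_and] at hg
      refine ⟨h * g, ?_, by group⟩
      simp only [Finset.mem_filter, Finset.mem_univ, true_and]
      rw [mul_smul, hg]
  have hG : (Fintype.card G : ℝ) = ((orb G A).card : ℝ) * K := by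
    have : (Finset.univ : Finset G).card
        = ∑ S ∈ orb G A, (Finset.univ.filter (fun g : G => g • A = S)).card := by
      apply Finset.card_eq_sum_card_fiberwise
      intro g _
      exact (mem_orb A _).mpr ⟨g, rfl⟩
    rw [Finset.card_univ, Finset.sum_congr rfl hfib, Finset.sum_const, smul_eq_mul] at this
    exact_mod_cast this
  have hgH : ((Finset.univ.filter (fun g : G => A.image (fun x => g • x) ⊆ H)).card : ℝ)
      = (𝒜.card : ℝ) * K := by
    have : (Finset.univ.filter (fun g : G => A.image (fun x => g • x) ⊆ H)).card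
        = ∑ S ∈ 𝒜, ((Finset.univ.filter (fun g : G => A.image (fun x => g • x) ⊆ H)).filter
            (fun g : G => g • A = S)).card := by
      apply Finset.card_eq_sum_card_fiberwise
      intro g hg
      have hg' : g • A ⊆ H := (Finset.mem_filter.mp (Finset.mem_coe.mp hg)).2
      exact Finset.mem_coe.mpr (Finset.mem_filter.mpr ⟨(mem_orb A _).mpr ⟨g, rfl⟩, hg'⟩)
    have h2 : ∀ S ∈ 𝒜, ((Finset.univ.filter (fun g : G => A.image (fun x => g • x) ⊆ H)).filter
            (fun g : G => g • A = S)).card = K := by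
      intro S hS
      have hS' := Finset.mem_filter.mp hS
      rw [← hfib S hS'.1]
      congr 1
      ext g
      simp only [Finset.mem_filter, Finset.mem_univ, true_and]
      constructor
      · exact fun h => h.2
      · intro h
        exact ⟨by change g • A ⊆ H; rw [h]; exact hS'.2, h⟩
    rw [Finset.sum_congr rfl h2, Finset.sum_const, smul_eq_mul] at this
    exact_mod_cast this
  rw [hgH, hG]
  have hK0 : (0 : ℝ) ≤ K := Nat.cast_nonneg _
  calc (𝒜.card : ℝ) * K ≤ (2 * (Real.exp c * p) ^ A.card * ((orb G A).card : ℝ)) * K :=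
        mul_le_mul_of_nonneg_right hfin2 hK0
    _ = 2 * (Real.exp c * p) ^ A.card * (((orb G A).card : ℝ) * K) := by ring

end Crest.Agent.R055.Sparse
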