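import Mathlib
import Crest.Agent.R055.Defs

-- ▼ part R055/Potential
section

/-!
# R055.Potential: the real-arithmetic endgame of the counting lemma

Parameters `lam = 3`, `rho = 8`, `eps_n = n / 24`, `L = log 8 ≤ 2.08`, `l4 = log 4 ≤ 1.3863`,
`c ≥ 50`.
-/

set_option autoImplicit false

namespace Crest.Agent.R055

theorem potential_step {c L l4 δ m k F F' F'' f3 t1 t2 a b m' k' : ℝ}
    (hc : 50 ≤ c) (hL : L ≤ 2.08) (hl : l4 ≤ 1.3863) (hδ : 0 ≤ δ)
    (h1 : 2 * m - t1 ≤ (1 + 2 / 24) * ((F + F' - f3) + a) + 2 / 24 * F + 2 * (k * L))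
    (h2 : a ≤ 2 * (m - t1))
    (h3 : 3 * m - t1 - t2 ≤ (1 + 3 / 24) * ((F + f3 - F'') + b + (m - t2)) + 3 / 24 * F
      + 3 * (k * L))
    (h4 : b ≤ 2 * (m - t2)) (h5 : t1 ≤ t2)
    (h6 : a + b ≤ m' + l4 * k')
    (h7 : c * k - 2 * m + δ ≤ 2 * F - F') (h7' : c * k' - 2 * m' + δ ≤ 2 * F' - F'')
    (hk : 0 ≤ k) (hk' : 0 ≤ k') (hF : 0 ≤ F) (hF' : 0 ≤ F') (hm : 0 ≤ m) (hm' : 0 ≤ m') :
    2.1 * (1.0555 * m + 1.7675 * (2 * F - F') - 5.778 * F) ≤
      1.0555 * m' + 1.7675 * (2 * F' - F'') - 5.778 * F' := by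
  have e1 : k * L ≤ 2.08 * k := by nlinarith
  have e2 : l4 * k' ≤ 1.3863 * k' := by nlinarith
  have e3 : 50 * k ≤ c * k := by nlinarith
  have e4 : 50 * k' ≤ c * k' := by nlinarith
  linarith

theorem potential_base {c L δ m k F F' : ℝ} (hc : 50 ≤ c) (hL : L ≤ 2.08) (hδ : 0 < δ)
    (h7 : c * k - 2 * m + δ ≤ 2 * F - F')
    (h9 : m ≤ (1 + 1 / 24) * (2 * F - F' + m) + 1 / 24 * F + k * L)
    (h10 : F = 3 * k) (hk : 0 ≤ k) (hF' : 0 ≤ F') :
    0 < 1.0555 * m + 1.7675 * (2 * F - F') - 5.778 * F := by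
  have e1 : k * L ≤ 2.08 * k := by nlinarith
  have e3 : 50 * k ≤ c * k := by nlinarith
  subst h10
  linarith

/-- The endgame: no bounded family of block data satisfies the chain inequalities. -/
theorem potential_contradiction {c L l4 δ M : ℝ} (hc : 50 ≤ c) (hL : L ≤ 2.08)
    (hl : l4 ≤ 1.3863) (hδ : 0 < δ)
    (m k F f3 t1 t2 a b : ℕ → ℝ)
    (h1 : ∀ j, 2 * m j - t1 j ≤ (1 + 2 / 24) * ((F j + F (j + 1) - f3 j) + a j) + 2 / 24 * F j
      + 2 * (k j * L))
    (h2 : ∀ j, a j ≤ 2 * (m j - t1 j))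
    (h3 : ∀ j, 3 * m j - t1 j - t2 j ≤ (1 + 3 / 24) * ((F j + f3 j - F (j + 2)) + b j
      + (m j - t2 j)) + 3 / 24 * F j + 3 * (k j * L))
    (h4 : ∀ j, b j ≤ 2 * (m j - t2 j)) (h5 : ∀ j, t1 j ≤ t2 j)
    (h6 : ∀ j, a j + b j ≤ m (j + 1) + l4 * k (j + 1))
    (h7 : ∀ j, c * k j - 2 * m j + δ ≤ 2 * F j - F (j + 1))
    (h9 : m 0 ≤ (1 + 1 / 24) * (2 * F 0 - F 1 + m 0) + 1 / 24 * F 0 + k 0 * L)
    (h10 : F 0 = 3 * k 0) (hk : ∀ j, 0 ≤ k j) (hF : ∀ j, 0 ≤ F j) (hm : ∀ j, 0 ≤ m j)
    (hM : ∀ j, m j ≤ M) : False := by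
  set P : ℕ → ℝ := fun j => 1.0555 * m j + 1.7675 * (2 * F j - F (j + 1)) - 5.778 * F j with hP
  have hstep : ∀ j, 2.1 * P j ≤ P (j + 1) := fun j =>
    potential_step hc hL hl hδ.le (h1 j) (h2 j) (h3 j) (h4 j) (h5 j) (h6 j) (h7 j) (h7 (j + 1))
      (hk j) (hk (j + 1)) (hF j) (hF (j + 1)) (hm j) (hm (j + 1))
  have hbase : 0 < P 0 := potential_base hc hL hδ (h7 0) h9 h10 (hk 0) (hF 1)
  have hgrow : ∀ j, 2.1 ^ j * P 0 ≤ P j := by
    intro j
    induction j with
    | zero => simp
    | succ j ih =>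
      calc (2.1 : ℝ) ^ (j + 1) * P 0 = 2.1 * (2.1 ^ j * P 0) := by ring
        _ ≤ 2.1 * P j := by gcongr
        _ ≤ P (j + 1) := hstep j
  have hbd : ∀ j, P j ≤ 1.0555 * M := by
    intro j
    have h1 := hM j
    have h2 := hF j
    have h3 := hF (j + 1)
    simp only [hP]
    linarith
  have hlim := (tendsto_pow_atTop_atTop_of_one_lt (by norm_num : (1 : ℝ) < 2.1))
  obtain ⟨j, hj⟩ := (hlim.eventually_gt_atTop (1.0555 * M / P 0)).exists
  have h := (hgrow j).trans (hbd j)
  have hj' : 1.0555 * M < 2.1 ^ j * P 0 := (div_lt_iff₀ hbase).1 hj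
  exact absurd h (not_le.mpr hj')

end Crest.Agent.R055
end

-- ▼ part R055/Extremal

/-!
# R055.Extremal: existence of the extremal law and the homogeneous form of extremality
-/

set_option autoImplicit false
set_option linter.unusedSectionVars false
open Finset Real
open scoped Pointwise

namespace Crest.Agent.R055

section
variable {E : Type} [Fintype E] [DecidableEq E]

lemma continuous_hl {S : Type*} [Fintype S] : Continuous (hl : (S → ℝ) → ℝ) := by
  unfold hl
  exact continuous_finsetSum _ fun s _ => Real.continuous_negMulLog.comp (continuous_apply s)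

lemma continuous_symm (G : Type*) [Group G] [Fintype G] {S : Type*} [MulAction G S] :
    Continuous (symm G : (S → ℝ) → (S → ℝ)) := by
  unfold symm
  refine continuous_pi fun s => ?_
  exact (continuous_finsetSum _ fun g _ => continuous_apply (g⁻¹ • s)).div_const _

lemma continuous_Dv (G : Type*) [Group G] [Fintype G] {S : Type*} [Fintype S] [MulAction G S] :
    Continuous (Dv G : (S → ℝ) → ℝ) := by
  unfold Dv
  exact (continuous_hl.comp (continuous_symm G)).sub continuous_hl

lemma continuous_ecard {S : Type*} [Fintype S] (U : S → Finset E) :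
    Continuous (fun w : S → ℝ => ecard w U) := by
  unfold ecard
  exact continuous_finsetSum _ fun s _ => (continuous_apply s).mul continuous_const

lemma continuous_energy : Continuous (energy : (Finset E → ℝ) → ℝ) := by
  unfold energy
  refine continuous_finsetSum _ fun e _ => Continuous.pow ?_ 2
  refine continuous_finsetSum _ fun A _ => ?_
  split_ifs
  · exact continuous_apply A
  · exact continuous_const

lemma isCompact_isLaw (H : Finset E) : IsCompact {w : Finset E → ℝ | IsLaw H w} := by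
  have hsub : {w : Finset E → ℝ | IsLaw H w} ⊆ Set.pi Set.univ (fun _ => Set.Icc (0 : ℝ) 1) := by
    intro w hw A _
    refine ⟨hw.prob.nonneg A, ?_⟩
    rw [← hw.prob.sum_eq]
    exact Finset.single_le_sum (fun i _ => hw.prob.nonneg i) (Finset.mem_univ A)
  refine (isCompact_univ_pi fun _ => isCompact_Icc).of_isClosed_subset ?_ hsub
  have : {w : Finset E → ℝ | IsLaw H w} = {w | ∀ A, 0 ≤ w A} ∩ {w | ∑ A, w A = 1} ∩
      {w | ∀ A, ¬ A ⊆ H → w A = 0} := by
    ext w
    constructor
    · intro hw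
      exact ⟨⟨hw.prob.nonneg, hw.prob.sum_eq⟩, fun A hA => by
        by_contra h
        exact hA (hw.supp A h)⟩
    · rintro ⟨⟨h1, h2⟩, h3⟩
      exact ⟨⟨h1, h2⟩, fun A hA => by
        by_contra h
        exact hA (h3 A h)⟩
  rw [this]
  refine (IsClosed.inter ?_ ?_).inter ?_
  · simp only [Set.ofPred_forall]
    exact isClosed_iInter fun A => isClosed_le continuous_const (continuous_apply A)
  · exact isClosed_eq (continuous_finsetSum _ fun A _ => continuous_apply A) continuous_const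
  · simp only [Set.ofPred_forall]
    exact isClosed_iInter fun A => isClosed_iInter fun _ =>
      isClosed_eq (continuous_apply A) continuous_const

/-- the point mass at the empty set -/
lemma isLaw_empty (H : Finset E) : IsLaw H (fun A => if A = ∅ then (1 : ℝ) else 0) := by
  refine ⟨⟨fun A => by split_ifs <;> norm_num, by simp⟩, fun A hA => ?_⟩
  by_cases h : A = ∅
  · simp [h]
  · simp [h] at hA

variable (G : Type) [Group G] [Fintype G] [MulAction G E]

theorem exists_extremal (H : Finset E) (l lam : ℝ) : ∃ (Ψ : ℝ) (w : Finset E → ℝ), IsLaw H w ∧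
    lam * energy w = Dv G w - l * ecard w (fun A => A) + Ψ ∧ Extremal G H l lam Ψ := by
  have hcont : Continuous fun w : Finset E → ℝ =>
      Dv G w - l * ecard w (fun A => A) - lam * energy w :=
    ((continuous_Dv G).sub (continuous_const.mul (continuous_ecard _))).sub
      (continuous_const.mul continuous_energy)
  obtain ⟨w, hw, hmin⟩ := (isCompact_isLaw H).exists_isMinOn ⟨_, isLaw_empty H⟩
    hcont.continuousOn
  refine ⟨-(Dv G w - l * ecard w (fun A => A) - lam * energy w), w, hw, by ring, ?_⟩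
  intro w' hw'
  have h := hmin hw'
  have h' : Dv G w - l * ecard w (fun A => A) - lam * energy w ≤
    Dv G w' - l * ecard w' (fun A => A) - lam * energy w' := h
  linarith

/-! ### homogeneity -/

lemma hl_smul_ext {S : Type*} [Fintype S] (s : ℝ) (w : S → ℝ) :
    hl (fun x => s * w x) = s * hl w + Real.negMulLog s * ∑ x, w x := by
  unfold hl
  rw [Finset.mul_sum, Finset.mul_sum, ← Finset.sum_add_distrib]
  refine Finset.sum_congr rfl fun x _ => ?_
  rw [Real.negMulLog_mul]
  ring

lemma symm_smul_ext (G : Type*) [Group G] [Fintype G] {S : Type*} [MulAction G S] (s : ℝ)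
    (w : S → ℝ) : symm G (fun x => s * w x) = fun x => s * symm G w x := by
  funext x
  unfold symm
  rw [← Finset.mul_sum, mul_div_assoc]

lemma sum_symm_ext (G : Type*) [Group G] [Fintype G] {S : Type*} [Fintype S] [MulAction G S]
    (w : S → ℝ) : ∑ x, symm G w x = ∑ x, w x := by
  unfold symm
  rw [← Finset.sum_div, Finset.sum_comm]
  have h : ∀ g : G, ∑ x : S, w (g⁻¹ • x) = ∑ x, w x := fun g =>
    Fintype.sum_equiv (MulAction.toPerm g⁻¹) _ _ (fun x => rfl)
  simp only [h, Finset.sum_const, Finset.card_univ, nsmul_eq_mul]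
  have : (Fintype.card G : ℝ) ≠ 0 := by
    exact_mod_cast Fintype.card_ne_zero
  field_simp

lemma Dv_smul_ext (G : Type*) [Group G] [Fintype G] {S : Type*} [Fintype S] [MulAction G S] (s : ℝ)
    (w : S → ℝ) : Dv G (fun x => s * w x) = s * Dv G w := by
  unfold Dv
  rw [symm_smul_ext, hl_smul_ext, hl_smul_ext, sum_symm_ext]
  ring

lemma ecard_smul_ext {S : Type*} [Fintype S] (U : S → Finset E) (s : ℝ) (w : S → ℝ) :
    ecard (fun x => s * w x) U = s * ecard w U := by
  unfold ecard
  rw [Finset.mul_sum]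
  exact Finset.sum_congr rfl fun x _ => by ring

lemma energy_smul_ext (s : ℝ) (w : Finset E → ℝ) :
    energy (fun x => s * w x) = s ^ 2 * energy w := by
  unfold energy
  rw [Finset.mul_sum]
  refine Finset.sum_congr rfl fun e _ => ?_
  rw [← mul_pow, Finset.mul_sum]
  congr 1
  refine Finset.sum_congr rfl fun A _ => ?_
  split_ifs <;> simp

theorem Extremal.hom {H : Finset E} {l lam Ψ : ℝ} (h : Extremal G H l lam Ψ) :
    ExtremalHom G H l lam Ψ := by
  intro w hw hsupp
  set s := ∑ A, w A with hs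
  rcases (Finset.sum_nonneg fun A _ => hw A : (0 : ℝ) ≤ ∑ A, w A).eq_or_lt with h0 | hpos
  · have hz : w = fun A => 0 * (1 : ℝ) := by
      funext A
      have := (Finset.sum_eq_zero_iff_of_nonneg fun A _ => hw A).1 h0.symm A (Finset.mem_univ A)
      rw [this]; simp
    have hs0 : s = 0 := by rw [hs, ← h0]
    have e1 : Dv G w = 0 := by rw [hz, Dv_smul_ext]; simp
    have e2 : ecard w (fun A => A) = 0 := by rw [hz, ecard_smul_ext]; simp
    rw [e1, e2, hs0]
    simp
  · have hspos : 0 < s := hpos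
    set v : Finset E → ℝ := fun A => w A / s with hv
    have hwv : w = fun A => s * v A := by
      funext A
      rw [hv]
      field_simp
    have hlaw : IsLaw H v := by
      refine ⟨⟨fun A => div_nonneg (hw A) hspos.le, ?_⟩, fun A hA => hsupp A ?_⟩
      · rw [hv, ← Finset.sum_div, ← hs, div_self hspos.ne']
      · intro h0
        apply hA
        rw [hv]
        simp [h0]
    have key := h v hlaw
    rw [hwv, Dv_smul_ext, ecard_smul_ext, energy_smul_ext]
    have e3 : s ^ 2 * energy v / s = s * energy v := by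
      field_simp
    rw [e3]
    nlinarith

end

end Crest.Agent.R055
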