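import Mathlib
import Crest.Agent.R055.Stmts
import Crest.Agent.R055.Extremal_Mg
import Crest.Prelude.Def_FinProb
import Crest.Prelude.Def_RandomGraph
import Crest.Agent.R055.Spread
import Crest.Agent.R055.CountBlk
import Crest.Agent.R055.Ent
import Crest.Agent.R055.Defs
import Crest.Agent.R055.Law
import Crest.Agent.R055.Count

-- ▼ part R055/Assembly
section

/-!
# R055.Assembly: `Ψ ≤ log 2` from the module statements
-/

set_option autoImplicit false
open Finset Real
open scoped Pointwise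

namespace Crest.Agent.R055

variable {G : Type} [Group G] [Fintype G] {E : Type} [Fintype E] [DecidableEq E]
    [MulAction G E] {H : Finset E}

/-- iterated squares of a block -/
noncomputable def Blk.iter (B : Blk G H) : ℕ → Blk G H
  | 0 => B
  | j + 1 => (B.iter j).prod (B.iter j)

lemma log_eight_le : Real.log 8 ≤ 2.08 := by
  have h : (8 : ℝ) = 2 ^ 3 := by norm_num
  rw [h, Real.log_pow]
  have := Real.log_two_lt_d9
  push_cast
  linarith

lemma log_four_le : Real.log 4 ≤ 1.3863 := by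
  have h : (4 : ℝ) = 2 ^ 2 := by norm_num
  rw [h, Real.log_pow]
  have := Real.log_two_lt_d9
  push_cast
  linarith

/-- **Endgame**: the chain inequalities force `Ψ ≤ log 2`. -/
theorem psi_le_log_two {l p Ψ : ℝ} (hc : 50 ≤ Real.log (1 / p) - l)
    (hchain : ChainStmt G H l 3 8 Ψ) (hsparse : SparseGainStmt G H l p Ψ)
    (hbounds : BoundsStmt G H l 3 Ψ) (B₀ : Blk G H) (hB₀ : B₀.F l Ψ = 3 * B₀.k) :
    Ψ ≤ Real.log 2 := by
  by_contra hΨ
  push Not at hΨ
  choose f3 t1 t2 a b h using fun j : ℕ => hchain (B₀.iter j)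
  refine potential_contradiction (c := Real.log (1 / p) - l) (L := Real.log 8) (l4 := Real.log 4)
    (δ := Ψ - Real.log 2) (M := Fintype.card E * Real.log 2) hc log_eight_le log_four_le
    (by linarith) (fun j => (B₀.iter j).m) (fun j => (B₀.iter j).k)
    (fun j => (B₀.iter j).F l Ψ) f3 t1 t2 a b ?_ ?_ ?_ ?_ ?_ ?_ ?_ ?_ hB₀ ?_ ?_ ?_ ?_
  · intro j
    have := (h j).1
    have e : (B₀.iter (j + 1)) = (B₀.iter j).prod (B₀.iter j) := rfl
    simp only [e]
    norm_num at this ⊢
    linarith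
  · intro j
    exact (h j).2.1
  · intro j
    have := (h j).2.2.1
    have e : (B₀.iter (j + 2)) = ((B₀.iter j).prod (B₀.iter j)).prod
      ((B₀.iter j).prod (B₀.iter j)) := rfl
    simp only [e]
    norm_num at this ⊢
    linarith
  · intro j
    exact (h j).2.2.2.1
  · intro j
    exact (h j).2.2.2.2.2.1
  · intro j
    exact (h j).2.2.2.2.2.2.1
  · intro j
    exact hsparse (B₀.iter j)
  · have := (h 0).2.2.2.2.2.2.2
    have e : (B₀.iter 1) = (B₀.iter 0).prod (B₀.iter 0) := rfl
    simp only [e]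
    norm_num at this ⊢
    linarith
  · intro j
    exact (hbounds (B₀.iter j)).2.1
  · intro j
    have h1 := (hbounds (B₀.iter j)).1
    have h2 := (hbounds (B₀.iter j)).2.1
    show 0 ≤ (B₀.iter j).F l Ψ
    linarith
  · intro j
    exact (hbounds (B₀.iter j)).2.2.1
  · intro j
    exact (hbounds (B₀.iter j)).2.2.2.1

end Crest.Agent.R055
end

-- ▼ part R055/Reduce
section

/-! Reduction of S0076 to the counting lemma for finite group actions. -/

set_option autoImplicit false
set_option linter.unusedSectionVars false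

namespace Crest.Agent.R055

open Finset Crest.CombinatoricsR.RandomGraph

/-- The counting lemma, with constant `C`. -/
def CountingLemma (C : ℝ) : Prop :=
  ∀ (G E : Type) [Group G] [Fintype G] [Fintype E] [DecidableEq E] [MulAction G E]
    (H : Finset E) (p : ℝ), 0 < p → p ≤ 1 →
    (∀ A : Finset E, A ⊆ H →
      (1 : ℝ) / 2 ≤ ((Finset.univ.image (fun g : G => A.image (fun x => g • x))).card : ℝ)
        * p ^ A.card) →
    ∀ A : Finset E, A.Nonempty →
      ((Finset.univ.filter (fun g : G => A.image (fun x => g • x) ⊆ H)).card : ℝ)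
        ≤ 2 * (C * p) ^ A.card * Fintype.card G

section
variable {n : ℕ}

/-- permutations of the vertices act on edge slots -/
def slotSmul (g : Equiv.Perm (Fin n)) (z : EdgeSlot n) : EdgeSlot n :=
  ⟨Sym2.map g z.1, fun h => z.2 ((Sym2.isDiag_map g.injective).1 h)⟩

instance slotAction : MulAction (Equiv.Perm (Fin n)) (EdgeSlot n) where
  smul := slotSmul
  one_smul := by
    rintro ⟨z, hz⟩
    apply Subtype.ext
    show Sym2.map _ z = z
    induction z using Sym2.ind
    rfl
  mul_smul := by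
    rintro g h ⟨z, hz⟩
    apply Subtype.ext
    show Sym2.map _ z = Sym2.map g (Sym2.map h z)
    induction z using Sym2.ind
    rfl

lemma smul_val (g : Equiv.Perm (Fin n)) (z : EdgeSlot n) : (g • z).1 = Sym2.map g z.1 := rfl

lemma graphOf_adj (ω : EdgeSlot n → Bool) (a b : Fin n) :
    (graphOf ω).Adj a b ↔ ∃ h : ¬ (s(a, b) : Sym2 (Fin n)).IsDiag, ω ⟨s(a, b), h⟩ = true := by
  unfold graphOf
  rw [SimpleGraph.fromEdgeSet_adj]
  constructor
  · rintro ⟨h, _⟩
    exact h
  · intro h
    refine ⟨h, ?_⟩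
    obtain ⟨h1, _⟩ := h
    simpa using h1

/-- probability that all coins in `B` are on -/
lemma sum_weight_subset {X : Type*} [Fintype X] [DecidableEq X] (p : ℝ) (B : Finset X) :
    ∑ ω : X → Bool, Crest.FinProb.bernoulliWeight p ω *
      (if ∀ x ∈ B, ω x = true then (1 : ℝ) else 0) = p ^ B.card := by
  have h1 : ∀ ω : X → Bool, Crest.FinProb.bernoulliWeight p ω *
      (if ∀ x ∈ B, ω x = true then (1 : ℝ) else 0)
      = ∏ i, ((if ω i then p else 1 - p) * (if i ∈ B then (if ω i then 1 else 0) else 1)) := by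
    intro ω
    rw [Finset.prod_mul_distrib]
    unfold Crest.FinProb.bernoulliWeight
    congr 1
    by_cases h : ∀ x ∈ B, ω x = true
    · rw [if_pos h]
      symm
      refine Finset.prod_eq_one fun i _ => ?_
      by_cases hi : i ∈ B
      · simp [hi, h i hi]
      · simp [hi]
    · rw [if_neg h]
      push Not at h
      obtain ⟨x, hx, hω⟩ := h
      symm
      refine Finset.prod_eq_zero (Finset.mem_univ x) ?_
      simp [hx, hω]
  simp_rw [h1]
  have h2 := Finset.prod_univ_sum (fun _ : X => (Finset.univ : Finset Bool))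
    (fun (i : X) (b : Bool) => ((if b then p else 1 - p) *
      (if i ∈ B then (if b then (1 : ℝ) else 0) else 1)))
  rw [Fintype.piFinset_univ] at h2
  rw [← h2]
  have h3 : ∀ i : X, ∑ b : Bool, ((if b then p else 1 - p) *
      (if i ∈ B then (if b then (1 : ℝ) else 0) else 1)) = if i ∈ B then p else 1 := by
    intro i
    by_cases hi : i ∈ B
    · simp [hi]
    · simp [hi]
  simp_rw [h3]
  rw [Finset.prod_ite_mem]
  simp

/-- two injections from the same finite type differ by a permutation -/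
lemma exists_perm {α β : Type*} [Fintype β] [DecidableEq β] (f g : α → β)
    (hf : Function.Injective f) (hg : Function.Injective g) :
    ∃ σ : Equiv.Perm β, ∀ a, σ (f a) = g a := by
  classical
  let e : {x // x ∈ Set.range f} ≃ {x // x ∈ Set.range g} :=
    (Equiv.ofInjective f hf).symm.trans (Equiv.ofInjective g hg)
  refine ⟨e.extendSubtype, fun a => ?_⟩
  rw [Equiv.extendSubtype_apply_of_mem e (f a) ⟨a, rfl⟩]
  simp only [e, Equiv.trans_apply]
  have : (Equiv.ofInjective f hf).symm ⟨f a, ⟨a, rfl⟩⟩ = a := by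
    rw [Equiv.symm_apply_eq]
    rfl
  rw [this]
  rfl

section main
variable {W : Type} [Fintype W] [DecidableEq W] (H : SimpleGraph W) (j : W ↪ Fin n)

/-- the standard copy of `H` -/
noncomputable def copyOf : Finset (EdgeSlot n) :=
  open Classical in Finset.univ.filter (fun z => ∃ a b, H.Adj a b ∧ z.1 = s(j a, j b))

lemma mem_copyOf (z : EdgeSlot n) : z ∈ copyOf H j ↔ ∃ a b, H.Adj a b ∧ z.1 = s(j a, j b) := by
  classical
  unfold copyOf
  simp

lemma card_copyOf [DecidableRel H.Adj] : (copyOf H j).card = H.edgeFinset.card := by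
  classical
  symm
  refine Finset.card_bij (fun e he => (⟨Sym2.map j e, ?_⟩ : EdgeSlot n)) ?_ ?_ ?_
  · rw [Sym2.isDiag_map j.injective]
    exact H.not_isDiag_of_mem_edgeFinset he
  · intro e he
    rw [mem_copyOf]
    induction e using Sym2.ind with
    | _ a b =>
      rw [SimpleGraph.mem_edgeFinset, SimpleGraph.mem_edgeSet] at he
      exact ⟨a, b, he, rfl⟩
  · intro e he e' he' h
    rw [Subtype.mk.injEq] at h
    exact Sym2.map.injective j.injective h
  · intro z hz
    rw [mem_copyOf] at hz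
    obtain ⟨a, b, hab, h⟩ := hz
    refine ⟨s(a, b), ?_, ?_⟩
    · rw [SimpleGraph.mem_edgeFinset, SimpleGraph.mem_edgeSet]; exact hab
    · apply Subtype.ext
      rw [h]
      rfl

lemma copyOf_adj {a b : W} {z : EdgeSlot n} (hz : z ∈ copyOf H j) (h : z.1 = s(j a, j b)) :
    H.Adj a b := by
  rw [mem_copyOf] at hz
  obtain ⟨c, d, hcd, h'⟩ := hz
  rw [h, Sym2.eq_iff] at h'
  rcases h' with ⟨h1, h2⟩ | ⟨h1, h2⟩
  · rw [j.injective h1, j.injective h2]; exact hcd
  · rw [j.injective h1, j.injective h2]; exact hcd.symm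

/-- the subgraph of `H` with edge set `A` and no isolated vertices -/
def subOf (A : Finset (EdgeSlot n)) (hA : A ⊆ copyOf H j) : H.Subgraph where
  verts := {a | ∃ b, ∃ z ∈ A, z.1 = s(j a, j b)}
  Adj a b := ∃ z ∈ A, z.1 = s(j a, j b)
  adj_sub := by
    rintro a b ⟨z, hz, h⟩
    exact copyOf_adj H j (hA hz) h
  edge_vert := by
    rintro a b ⟨z, hz, h⟩
    exact ⟨b, z, hz, h⟩
  symm := ⟨by
    rintro a b ⟨z, hz, h⟩
    exact ⟨z, hz, by rw [h, Sym2.eq_swap]⟩⟩

/-- the edge slots of a subgraph -/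
noncomputable def slotsOf {G : SimpleGraph (Fin n)} (G' : G.Subgraph) : Finset (EdgeSlot n) :=
  open Classical in Finset.univ.filter (fun z => z.1 ∈ G'.edgeSet)

lemma mem_slotsOf {G : SimpleGraph (Fin n)} (G' : G.Subgraph) (z : EdgeSlot n) :
    z ∈ slotsOf G' ↔ z.1 ∈ G'.edgeSet := by
  classical
  unfold slotsOf
  simp

lemma slots_toSubgraph (A : Finset (EdgeSlot n)) (hA : A ⊆ copyOf H j)
    {G : SimpleGraph (Fin n)} (f : (subOf H j A hA).coe.Copy G) :
    ∃ g : Equiv.Perm (Fin n), A.image (fun x => g • x) = slotsOf f.toSubgraph := by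
  classical
  obtain ⟨g, hg⟩ := exists_perm (fun a : (subOf H j A hA).verts => j a.1) (fun a => f a)
    (fun a b h => Subtype.ext (j.injective h)) f.injective
  refine ⟨g, ?_⟩
  ext z
  rw [mem_slotsOf, Finset.mem_image]
  constructor
  · rintro ⟨y, hy, rfl⟩
    have hy' := hA hy
    rw [mem_copyOf] at hy'
    obtain ⟨a, b, hab, h⟩ := hy'
    have ha : a ∈ (subOf H j A hA).verts := ⟨b, y, hy, h⟩
    have hb : b ∈ (subOf H j A hA).verts := ⟨a, y, hy, by rw [h, Sym2.eq_swap]⟩
    have e1 := hg ⟨a, ha⟩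
    have e2 := hg ⟨b, hb⟩
    simp only at e1 e2
    have : (g • y).1 = s(f ⟨a, ha⟩, f ⟨b, hb⟩) := by
      rw [smul_val, h, Sym2.map_mk]
      simp only [e1, e2]
    rw [this, SimpleGraph.Subgraph.mem_edgeSet]
    refine ⟨⟨a, ha⟩, ⟨b, hb⟩, ?_, rfl, rfl⟩
    exact ⟨y, hy, h⟩
  · intro hz
    obtain ⟨z, hzd⟩ := z
    induction z using Sym2.ind with
    | _ u v =>
      rw [SimpleGraph.Subgraph.mem_edgeSet] at hz
      obtain ⟨a, b, hab, rfl, rfl⟩ := hz
      have hab' : (subOf H j A hA).coe.Adj a b := hab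
      obtain ⟨y, hy, h⟩ := hab'
      refine ⟨y, hy, ?_⟩
      apply Subtype.ext
      rw [smul_val, h, Sym2.map_mk, hg a, hg b]
      rfl

lemma copyCount_le (A : Finset (EdgeSlot n)) (hA : A ⊆ copyOf H j) (ω : EdgeSlot n → Bool) :
    (graphOf ω).copyCount (subOf H j A hA).coe ≤
      ((Finset.univ.image (fun g : Equiv.Perm (Fin n) => A.image (fun x => g • x))).filter
        (fun B => ∀ x ∈ B, ω x = true)).card := by
  classical
  have : Fintype {f : (subOf H j A hA).coe →g graphOf ω // Function.Injective f} :=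
    Fintype.ofFinite _
  rw [SimpleGraph.copyCount_eq_card_image_copyToSubgraph]
  refine Finset.card_le_card_of_injOn (fun G' => slotsOf G') ?_ ?_
  · intro G' hG'
    rw [Finset.mem_coe, Finset.mem_image] at hG'
    obtain ⟨f, _, rfl⟩ := hG'
    obtain ⟨g, hg⟩ := slots_toSubgraph H j A hA f
    rw [Finset.mem_coe, Finset.mem_filter]
    refine ⟨?_, ?_⟩
    · show slotsOf f.toSubgraph ∈ _
      rw [← hg]
      exact Finset.mem_image_of_mem (fun g : Equiv.Perm (Fin n) => A.image (fun x => g • x))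
        (Finset.mem_univ g)
    · intro x hx
      rw [mem_slotsOf] at hx
      obtain ⟨x, hxd⟩ := x
      induction x using Sym2.ind with
      | _ u v =>
        rw [SimpleGraph.Subgraph.mem_edgeSet] at hx
        have := f.toSubgraph.adj_sub hx
        rw [graphOf_adj] at this
        exact this.2
  · intro G1 h1 G2 h2 h
    rw [Finset.mem_coe, Finset.mem_image] at h1 h2
    obtain ⟨f1, _, rfl⟩ := h1
    obtain ⟨f2, _, rfl⟩ := h2
    simp only at h
    have hadj : ∀ u v, f1.toSubgraph.Adj u v ↔ f2.toSubgraph.Adj u v := by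
      intro u v
      by_cases huv : (s(u, v) : Sym2 (Fin n)).IsDiag
      · have : u = v := by simpa using huv
        subst this
        exact ⟨fun h => absurd rfl h.ne, fun h => absurd rfl h.ne⟩
      · have e1 := mem_slotsOf f1.toSubgraph ⟨s(u, v), huv⟩
        have e2 := mem_slotsOf f2.toSubgraph ⟨s(u, v), huv⟩
        rw [SimpleGraph.Subgraph.mem_edgeSet] at e1 e2
        rw [← e1, ← e2, h]
    have hv : ∀ (f f' : (subOf H j A hA).coe.Copy (graphOf ω)),
        (∀ u v, f.toSubgraph.Adj u v ↔ f'.toSubgraph.Adj u v) →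
        ∀ v, v ∈ f.toSubgraph.verts → v ∈ f'.toSubgraph.verts := by
      intro f f' hff v hv
      obtain ⟨a, _, rfl⟩ := hv
      obtain ⟨a, b, z, hz, hzab⟩ := a
      have hb : b ∈ (subOf H j A hA).verts := ⟨a, z, hz, by rw [hzab, Sym2.eq_swap]⟩
      have h3 : f.toSubgraph.Adj (f ⟨a, ⟨b, z, hz, hzab⟩⟩) (f ⟨b, hb⟩) := by
        refine ⟨⟨a, ⟨b, z, hz, hzab⟩⟩, ⟨b, hb⟩, ?_, rfl, rfl⟩
        exact ⟨z, hz, hzab⟩
      exact f'.toSubgraph.edge_vert ((hff _ _).1 h3)
    refine SimpleGraph.Subgraph.ext ?_ ?_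
    · ext v
      exact ⟨hv f1 f2 hadj v, hv f2 f1 (fun u v => (hadj u v).symm) v⟩
    · funext u v
      exact propext (hadj u v)

lemma expect_le (p : ℝ) (hp0 : 0 ≤ p) (hp1 : p ≤ 1)
    (A : Finset (EdgeSlot n)) (hA : A ⊆ copyOf H j) :
    gnpExpect n p (fun G => (G.copyCount (subOf H j A hA).coe : ℝ)) ≤
      ((Finset.univ.image (fun g : Equiv.Perm (Fin n) => A.image (fun x => g • x))).card : ℝ)
        * p ^ A.card := by
  classical
  set O := Finset.univ.image (fun g : Equiv.Perm (Fin n) => A.image (fun x => g • x)) with hO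
  have hcard : ∀ B ∈ O, B.card = A.card := by
    intro B hB
    obtain ⟨g, _, rfl⟩ := Finset.mem_image.1 hB
    exact Finset.card_image_of_injective _ (MulAction.injective g)
  unfold gnpExpect
  calc ∑ ω : EdgeSlot n → Bool, Crest.FinProb.bernoulliWeight p ω *
        (((graphOf ω).copyCount (subOf H j A hA).coe : ℕ) : ℝ)
      ≤ ∑ ω : EdgeSlot n → Bool, Crest.FinProb.bernoulliWeight p ω *
        ∑ B ∈ O, (if ∀ x ∈ B, ω x = true then (1 : ℝ) else 0) := by
        refine Finset.sum_le_sum fun ω _ => ?_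
        refine mul_le_mul_of_nonneg_left ?_ ?_
        · have h1 := copyCount_le H j A hA ω
          have h2 : ∑ B ∈ O, (if ∀ x ∈ B, ω x = true then (1 : ℝ) else 0)
              = ((O.filter (fun B => ∀ x ∈ B, ω x = true)).card : ℝ) := by
            rw [← Finset.sum_filter]; simp
          rw [h2]
          exact_mod_cast h1
        · rw [bernoulliWeight_eq]
          exact wt_nonneg hp0 hp1 _
    _ = ∑ B ∈ O, p ^ B.card := by
        simp_rw [Finset.mul_sum]
        rw [Finset.sum_comm]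
        exact Finset.sum_congr rfl fun B _ => sum_weight_subset p B
    _ = (O.card : ℝ) * p ^ A.card := by
        rw [Finset.sum_congr rfl (fun B hB => by rw [hcard B hB]), Finset.sum_const,
          nsmul_eq_mul]

end main

/-- **Reduction**: the counting lemma with constant `C` gives the threshold with `8 C`. -/
theorem reduce {C : ℝ} (hC : 0 ≤ C) (hcount : CountingLemma C)
    (n : ℕ) (W : Type) [Fintype W] [DecidableEq W] (H : SimpleGraph W)
    [DecidableRel H.Adj] (hW : Fintype.card W ≤ n) (hH : 1 ≤ H.edgeFinset.card)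
    (p : ℝ) (hp0 : 0 ≤ p) (hp1 : p ≤ 1)
    (hE : ∀ F : H.Subgraph, (1 : ℝ) / 2 ≤
      gnpExpect n p (fun G => (G.copyCount F.coe : ℝ))) :
    (1 : ℝ) / 2 ≤ gnpProb n
      (min 1 (8 * (C * p) * (1 + Real.logb 2 (H.edgeFinset.card : ℝ))))
      {G | H.IsContained G} := by
  classical
  obtain ⟨j⟩ : Nonempty (W ↪ Fin n) := by
    refine Function.Embedding.nonempty_of_card_le ?_
    rw [Fintype.card_fin]; exact hW
  have hN : ∀ A : Finset (EdgeSlot n), A ⊆ copyOf H j →
      (1 : ℝ) / 2 ≤ ((Finset.univ.image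
        (fun g : Equiv.Perm (Fin n) => A.image (fun x => g • x))).card : ℝ) * p ^ A.card :=
    fun A hA => (hE (subOf H j A hA)).trans (expect_le H j p hp0 hp1 A hA)
  have hcard := card_copyOf H j
  have hp : 0 < p := by
    rcases eq_or_lt_of_le hp0 with h | h
    · exfalso
      have := hN (copyOf H j) (Finset.Subset.refl _)
      rw [← h, zero_pow (by omega)] at this
      norm_num at this
    · exact h
  have hc := hcount (Equiv.Perm (Fin n)) (EdgeSlot n) (copyOf H j) p hp hp1 hN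
  unfold gnpProb
  refine spread_indexed (ι := Equiv.Perm (Fin n))
    (fun g => (copyOf H j).image (fun x => g • x)) H.edgeFinset.card hH ?_ (C * p)
    (mul_nonneg hC hp0) ?_ _ ?_
  · intro g
    rw [← hcard]
    exact Finset.card_image_le
  · intro A hA
    have h1 := hc A hA
    have h2 : (Finset.univ.filter (fun g : Equiv.Perm (Fin n) =>
          A ⊆ (copyOf H j).image (fun x => g • x))).card
        = (Finset.univ.filter (fun g : Equiv.Perm (Fin n) =>
          A.image (fun x => g • x) ⊆ copyOf H j)).card := by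
      refine Finset.card_bij' (fun g _ => g⁻¹) (fun g _ => g⁻¹) ?_ ?_ ?_ ?_
      · intro g hg
        simp only [Finset.mem_filter, Finset.mem_univ, true_and] at hg ⊢
        intro y hy
        obtain ⟨x, hx, rfl⟩ := Finset.mem_image.1 hy
        obtain ⟨z, hz, rfl⟩ := Finset.mem_image.1 (hg hx)
        rw [inv_smul_smul]
        exact hz
      · intro g hg
        simp only [Finset.mem_filter, Finset.mem_univ, true_and] at hg ⊢
        intro x hx
        refine Finset.mem_image.2 ⟨g • x, hg (Finset.mem_image_of_mem _ hx), ?_⟩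
        rw [inv_smul_smul]
      · intro g _; simp
      · intro g _; simp
    rw [h2]
    exact h1
  · rintro ω ⟨g, hg⟩
    show H.IsContained (graphOf ω)
    refine ⟨⟨⟨fun a => g (j a), ?_⟩, ?_⟩⟩
    · intro a b hab
      rw [graphOf_adj]
      have hne : ¬ (s(j a, j b) : Sym2 (Fin n)).IsDiag := by
        rw [Sym2.mk_isDiag_iff]
        exact fun h => hab.ne (j.injective h)
      have hne' : ¬ (s(g (j a), g (j b)) : Sym2 (Fin n)).IsDiag := by
        rw [Sym2.mk_isDiag_iff]
        exact fun h => hab.ne (j.injective (g.injective h))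
      refine ⟨hne', ?_⟩
      refine hg ⟨s(g (j a), g (j b)), hne'⟩ ?_
      refine Finset.mem_image.2 ⟨⟨s(j a, j b), hne⟩, ?_, ?_⟩
      · rw [mem_copyOf]
        exact ⟨a, b, hab, rfl⟩
      · apply Subtype.ext
        rfl
    · intro a b hab
      exact j.injective (g.injective hab)

end

end Crest.Agent.R055
end

-- ▼ part R055/Final
section

/-! S0076 from the counting lemma with `C = 256 e^50` (or any smaller nonnegative constant). -/

set_option autoImplicit false

namespace Crest.Agent.R055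

open Crest.CombinatoricsR.RandomGraph

theorem CountingLemma.mono {C C' : ℝ} (h0 : 0 ≤ C) (h : C ≤ C') (hc : CountingLemma C) :
    CountingLemma C' := by
  intro G E _ _ _ _ _ H p hp hp1 hN A hA
  refine (hc G E H p hp hp1 hN A hA).trans ?_
  have h1 : (C * p) ^ A.card ≤ (C' * p) ^ A.card :=
    pow_le_pow_left₀ (mul_nonneg h0 hp.le) (mul_le_mul_of_nonneg_right h hp.le) _
  have h2 : (0 : ℝ) ≤ Fintype.card G := Nat.cast_nonneg _
  nlinarith [mul_le_mul_of_nonneg_right h1 h2]

theorem final (hc : CountingLemma (256 * Real.exp 50))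
    (n : ℕ) (_hn : 2 ≤ n) (W : Type) [Fintype W] [DecidableEq W] (H : SimpleGraph W)
    [DecidableRel H.Adj] (hW : Fintype.card W ≤ n) (hH : 1 ≤ H.edgeFinset.card)
    (p : ℝ) (hp0 : 0 ≤ p) (hp1 : p ≤ 1)
    (hE : ∀ F : H.Subgraph, (1 : ℝ) / 2 ≤
      Crest.CombinatoricsR.RandomGraph.gnpExpect n p (fun G => (G.copyCount F.coe : ℝ))) :
    (1 : ℝ) / 2 ≤ Crest.CombinatoricsR.RandomGraph.gnpProb n
      (min 1 (2048 * Real.exp 50 * p * (1 + Real.logb 2 (H.edgeFinset.card : ℝ))))
      {G | H.IsContained G} := by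
  have h := reduce (C := 256 * Real.exp 50) (by positivity) hc n W H hW hH p hp0 hp1 hE
  have e : 8 * (256 * Real.exp 50 * p) = 2048 * Real.exp 50 * p := by ring
  rwa [e] at h

end Crest.Agent.R055
end

-- ▼ part R055/Assembly2
section

/-!
# R055.Assembly2: the counting lemma from the module statements
-/

set_option autoImplicit false
open Finset Real
open scoped Pointwise

namespace Crest.Agent.R055

theorem countingLemma_of
    (hgain : ∀ (G E : Type) [Group G] [Fintype G] [Fintype E] [DecidableEq E] [MulAction G E]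
      (H : Finset E) (l Ψ : ℝ), Extremal G H l 3 Ψ → GainStmt G H l 3 8 Ψ)
    (hchain : ∀ (G E : Type) [Group G] [Fintype G] [Fintype E] [DecidableEq E] [MulAction G E]
      (H : Finset E) (l Ψ : ℝ), GainStmt G H l 3 8 Ψ → ChainStmt G H l 3 8 Ψ)
    (hsparse : ∀ (G E : Type) [Group G] [Fintype G] [Fintype E] [DecidableEq E] [MulAction G E]
      (H : Finset E) (p l Ψ : ℝ), 0 < p → (∀ A : Finset E, A ⊆ H →
      (1 : ℝ) / 2 ≤ ((Finset.univ.image (fun g : G => A.image (fun x => g • x))).card : ℝ)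
        * p ^ A.card) → SparseGainStmt G H l p Ψ)
    (hbounds : ∀ (G E : Type) [Group G] [Fintype G] [Fintype E] [DecidableEq E] [MulAction G E]
      (H : Finset E) (l Ψ : ℝ), 0 ≤ l → Extremal G H l 3 Ψ → BoundsStmt G H l 3 Ψ)
    (hbase : ∀ (G E : Type) [Group G] [Fintype G] [Fintype E] [DecidableEq E] [MulAction G E]
      (H : Finset E) (l Ψ : ℝ) (w : Finset E → ℝ), IsLaw H w →
      3 * energy w = Dv G w - l * ecard w (fun A => A) + Ψ →
      ∃ B₀ : Blk G H, B₀.F l Ψ = 3 * B₀.k) :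
    CountingLemma (Real.exp 50) := by
  intro G E _ _ _ _ _ H p hp hp1 hN A hA
  by_cases hl : 0 ≤ Real.log (1 / p) - 50
  · obtain ⟨Ψ, w, hw, heq, hext⟩ := exists_extremal G H (Real.log (1 / p) - 50) 3
    obtain ⟨B₀, hB₀⟩ := hbase G E H _ Ψ w hw heq
    have hΨ : Ψ ≤ Real.log 2 := psi_le_log_two (p := p) (by linarith)
      (hchain G E H _ Ψ (hgain G E H _ Ψ hext)) (hsparse G E H p _ Ψ hp hN)
      (hbounds G E H _ Ψ hl hext) B₀ hB₀
    exact counting_of_extremal H p 50 3 Ψ hp (by norm_num) hext hΨ A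
  · push Not at hl
    have h1 : 1 ≤ Real.exp 50 * p := by
      have h2 : Real.log (1 / p) = - Real.log p := by rw [one_div, Real.log_inv]
      have h3 : p = Real.exp (Real.log p) := (Real.exp_log hp).symm
      rw [h3, ← Real.exp_add]
      exact Real.one_le_exp (by linarith)
    have h4 : (1 : ℝ) ≤ (Real.exp 50 * p) ^ A.card := one_le_pow₀ h1
    have h5 : ((Finset.univ.filter (fun g : G => A.image (fun x => g • x) ⊆ H)).card : ℝ)
        ≤ Fintype.card G := by
      exact_mod_cast Finset.card_le_univ _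
    have h6 : (0 : ℝ) ≤ Fintype.card G := Nat.cast_nonneg _
    nlinarith

end Crest.Agent.R055
end

-- ▼ part R055/DataProc
section

/-! Row 55: sub-additivity and data processing for `Dv`. -/

set_option autoImplicit false
set_option linter.unusedSectionVars false
open Finset Real
open scoped Pointwise

namespace Crest.Agent.R055

section
variable {Ω : Type*} [Fintype Ω] {P : Ω → ℝ} {S₁ S₂ S₃ : Type*}

/-- entropy of a pair is at most the sum -/
lemma ent_pair_le (hP : IsProb P) (X : Ω → S₁) (Y : Ω → S₂) :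
    ent P (fun ω => (X ω, Y ω)) ≤ ent P X + ent P Y := by
  have h := ent_submod hP X Y (fun _ => ())
  have h1 : ent P (fun _ : Ω => ()) = 0 := by
    unfold ent cls
    simp [hP.sum_eq]
  have h2 : ent P (fun ω => (X ω, Y ω, ())) = ent P (fun ω => (X ω, Y ω)) :=
    ent_congr (by intro ω ω'; simp)
  have h3 : ent P (fun ω => (X ω, ())) = ent P X := ent_congr (by intro ω ω'; simp)
  have h4 : ent P (fun ω => (Y ω, ())) = ent P Y := ent_congr (by intro ω ω'; simp)
  linarith [h, h1, h2, h3, h4]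

end

section prod
variable {A B : Type*} [Fintype A] [Fintype B]

lemma push_fst (w : A × B → ℝ) (a : A) : push Prod.fst w a = ∑ b, w (a, b) := by
  classical
  unfold push
  rw [Fintype.sum_prod_type, Finset.sum_eq_single a]
  · simp
  · intro b _ hb; simp [hb]
  · simp

lemma push_snd (w : A × B → ℝ) (b : B) : push Prod.snd w b = ∑ a, w (a, b) := by
  classical
  unfold push
  rw [Fintype.sum_prod_type_right, Finset.sum_eq_single b]
  · simp
  · intro c _ hc; simp [hc]
  · simp

/-- subadditivity on product spaces -/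
lemma hl_prod_le {w : A × B → ℝ} (hw : IsProb w) :
    hl w ≤ hl (fun a => ∑ b, w (a, b)) + hl (fun b => ∑ a, w (a, b)) := by
  have h := ent_pair_le hw (fun x : A × B => x.1) (fun x => x.2)
  have h1 : ent w (fun x : A × B => (x.1, x.2)) = hl w := by
    rw [← ent_id w]
  have h2 : ent w (fun x : A × B => x.1) = hl (fun a => ∑ b, w (a, b)) := by
    rw [ent_eq_hl]
    congr 1
    funext a
    exact push_fst w a
  have h3 : ent w (fun x : A × B => x.2) = hl (fun b => ∑ a, w (a, b)) := by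
    rw [ent_eq_hl]
    congr 1
    funext a
    exact push_snd w a
  rw [h1, h2, h3] at h
  exact h

/-- entropy of a product weight -/
lemma hl_mul {w : A → ℝ} {v : B → ℝ} (hw : ∑ a, w a = 1) (hv : ∑ b, v b = 1) :
    hl (fun x : A × B => w x.1 * v x.2) = hl w + hl v := by
  unfold hl
  rw [Fintype.sum_prod_type]
  simp_rw [Real.negMulLog_mul, Finset.sum_add_distrib, ← Finset.mul_sum, ← Finset.sum_mul]
  rw [hv, hw]
  simp

end prod

section dp
variable (G : Type*) [Group G] [Fintype G] {S S' : Type*} [Fintype S] [Fintype S']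
  [MulAction G S] [MulAction G S']

/-- uniform weight on the group -/
noncomputable def unifG : G → ℝ := fun _ => 1 / (Fintype.card G : ℝ)

lemma sum_unifG : ∑ g : G, unifG G g = 1 := by
  unfold unifG
  simp

lemma unifG_nonneg (g : G) : 0 ≤ unifG G g := by
  unfold unifG; positivity

lemma symm_eq_push (w : S → ℝ) :
    symm G w = push (fun x : G × S => x.1 • x.2) (fun x : G × S => unifG G x.1 * w x.2) := by
  classical
  funext s
  unfold symm push unifG
  rw [Fintype.sum_prod_type, Finset.sum_div]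
  apply Finset.sum_congr rfl
  intro g _
  rw [Finset.sum_eq_single (g⁻¹ • s)]
  · simp only [smul_inv_smul, if_true]; ring
  · intro b _ hb
    rw [if_neg]
    intro h
    exact hb (by rw [← h, inv_smul_smul])
  · simp

/-- data processing, probability version -/
lemma Dv_push_le_of_prob {φ : S → S'} (hφ : ∀ (g : G) s, φ (g • s) = g • φ s) {w : S → ℝ}
    (hw : IsProb w) : Dv G (push φ w) ≤ Dv G w := by
  classical
  set P : G × S → ℝ := fun x => unifG G x.1 * w x.2 with hPdef
  have hP : IsProb P := by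
    constructor
    · intro x; exact mul_nonneg (unifG_nonneg G _) (hw.nonneg _)
    · rw [Fintype.sum_prod_type]
      simp only [hPdef]
      simp_rw [← Finset.mul_sum, hw.sum_eq, mul_one]
      exact sum_unifG G
  -- submodularity with X = g • s, Y = g, Z = φ (g • s)
  have h := ent_submod hP (fun x : G × S => x.1 • x.2) (fun x => x.1) (fun x => φ (x.1 • x.2))
  -- (g•s, g, φ(g•s)) ~ (g, s)
  have e1 : ent P (fun x : G × S => (x.1 • x.2, x.1, φ (x.1 • x.2))) = hl (unifG G) + hl w := by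
    rw [← hl_mul (sum_unifG G) hw.sum_eq, ← ent_id P]
    apply ent_congr
    rintro ⟨g, s⟩ ⟨g', s'⟩
    constructor
    · intro h
      simp only [Prod.mk.injEq] at h
      obtain ⟨h1, h2, -⟩ := h
      subst h2
      simp only [Prod.mk.injEq, true_and]
      exact smul_left_cancel _ h1
    · intro h
      simp only [Prod.mk.injEq] at h
      obtain ⟨h1, h2⟩ := h
      subst h1; subst h2; rfl
  have e2 : ent P (fun x : G × S => φ (x.1 • x.2)) = hl (symm G (push φ w)) := by
    rw [← push_symm G hφ, symm_eq_push, ent_eq_hl, push_push]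
  have e3 : ent P (fun x : G × S => (x.1 • x.2, φ (x.1 • x.2))) = hl (symm G w) := by
    rw [symm_eq_push, ← ent_eq_hl]
    apply ent_congr
    intro x y
    constructor
    · intro h; exact (Prod.mk.inj h).1
    · intro h; simp only [Prod.mk.injEq]; exact ⟨h, by rw [h]⟩
  have e4 : ent P (fun x : G × S => (x.1, φ (x.1 • x.2))) = hl (unifG G) + hl (push φ w) := by
    have : ent P (fun x : G × S => (x.1, φ (x.1 • x.2))) = ent P (fun x : G × S => (x.1, φ x.2)) := by
      apply ent_congr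
      rintro ⟨g, s⟩ ⟨g', s'⟩
      simp only [Prod.mk.injEq]
      constructor
      · rintro ⟨h1, h2⟩
        subst h1
        refine ⟨rfl, ?_⟩
        rw [hφ, hφ] at h2
        exact smul_left_cancel _ h2
      · rintro ⟨h1, h2⟩
        subst h1
        refine ⟨rfl, ?_⟩
        rw [hφ, hφ, h2]
    rw [this, ent_eq_hl]
    have hp : push (fun x : G × S => (x.1, φ x.2)) P
        = fun y : G × S' => unifG G y.1 * push φ w y.2 := by
      funext y
      obtain ⟨g, s'⟩ := y
      simp only [push, hPdef]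
      rw [Fintype.sum_prod_type, Finset.sum_eq_single g]
      · rw [Finset.mul_sum]
        apply Finset.sum_congr rfl
        intro s _
        simp only [Prod.mk.injEq, true_and]
        split_ifs <;> simp
      · intro b _ hb
        simp [hb]
      · simp
    rw [hp, hl_mul (sum_unifG G) (by rw [sum_push, hw.sum_eq])]
  unfold Dv
  rw [e1, e2, e3, e4] at h
  linarith

/-- data processing for unnormalised weights -/
lemma Dv_push_le {φ : S → S'} (hφ : ∀ (g : G) s, φ (g • s) = g • φ s) {w : S → ℝ}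
    (hw : ∀ s, 0 ≤ w s) : Dv G (push φ w) ≤ Dv G w := by
  classical
  rcases (Finset.sum_nonneg (fun s _ => hw s)).lt_or_eq with hW | hW
  · set W := ∑ s, w s with hWdef
    have h1 : w = fun s => W * (W⁻¹ * w s) := by
      funext s
      rw [← mul_assoc, mul_inv_cancel₀ hW.ne', one_mul]
    have hp : IsProb (fun s => W⁻¹ * w s) := by
      constructor
      · intro s; exact mul_nonneg (inv_nonneg.mpr hW.le) (hw s)
      · rw [← Finset.mul_sum, ← hWdef, inv_mul_cancel₀ hW.ne']
    have h2 := Dv_push_le_of_prob G hφ hp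
    have h3 : push φ w = fun s' => W * push φ (fun s => W⁻¹ * w s) s' := by
      funext s'
      conv_lhs => rw [h1]
      unfold push
      rw [Finset.mul_sum]
      apply Finset.sum_congr rfl
      intro s _
      split_ifs <;> simp
    rw [h3, Dv_const_mul]
    conv_rhs => rw [h1]
    rw [Dv_const_mul]
    exact mul_le_mul_of_nonneg_left h2 hW.le
  · have h0 : w = fun _ => 0 := by
      funext s
      exact (Finset.sum_eq_zero_iff_of_nonneg (fun s _ => hw s)).mp hW.symm s (Finset.mem_univ s)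
    have h3 : push φ w = fun _ => 0 := by
      funext s'
      unfold push
      simp [h0]
    rw [h3, h0]
    simp [Dv, symm, hl]

end dp

end Crest.Agent.R055
end

-- ▼ part R055/Kernel
section

/-! Row 55: the equivariant kernel. -/

set_option autoImplicit false
set_option linter.unusedSectionVars false
open Finset Real
open scoped Pointwise

namespace Crest.Agent.R055

section kernel
variable (G : Type*) [Group G] [Fintype G] {T Y : Type*} [Fintype T] [Fintype Y]
  [MulAction G T] [MulAction G Y]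

/-- resampled joint weight `Q(b,y) = μ(b) * R(b,y)/(symm μ)(b)` -/
noncomputable def resamp (μ : T → ℝ) (R : T × Y → ℝ) : T × Y → ℝ :=
  fun x => μ x.1 * (R x / symm G μ x.1)

variable {μ : T → ℝ} {R : T × Y → ℝ}

lemma symm_pos {t : T} (hμ : IsProb μ) (h : μ t ≠ 0) : 0 < symm G μ t := by
  unfold symm
  apply div_pos
  · have h1 : μ ((1 : G)⁻¹ • t) ≤ ∑ g : G, μ (g⁻¹ • t) :=
      Finset.single_le_sum (f := fun g : G => μ (g⁻¹ • t)) (fun g _ => hμ.nonneg _)
        (Finset.mem_univ (1 : G))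
    have h2 : 0 < μ ((1 : G)⁻¹ • t) := by
      simpa using lt_of_le_of_ne (hμ.nonneg t) (Ne.symm h)
    linarith
  · exact_mod_cast Fintype.card_pos

lemma resamp_nonneg (hμ : IsProb μ) (hR : ∀ x, 0 ≤ R x) (x : T × Y) : 0 ≤ resamp G μ R x := by
  unfold resamp
  exact mul_nonneg (hμ.nonneg _) (div_nonneg (hR _) (symm_nonneg G hμ.nonneg _))

lemma resamp_sum (hμ : IsProb μ) (hR1 : ∀ t, ∑ y, R (t, y) = symm G μ t) (b : T) :
    ∑ y, resamp G μ R (b, y) = μ b := by
  unfold resamp
  simp only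
  rw [← Finset.mul_sum, ← Finset.sum_div, hR1]
  by_cases h : μ b = 0
  · rw [h, zero_mul]
  · rw [div_self (symm_pos G hμ h).ne', mul_one]

lemma isProb_resamp (hμ : IsProb μ) (hR : ∀ x, 0 ≤ R x)
    (hR1 : ∀ t, ∑ y, R (t, y) = symm G μ t) : IsProb (resamp G μ R) := by
  constructor
  · exact resamp_nonneg G hμ hR
  · rw [Fintype.sum_prod_type]
    simp_rw [resamp_sum G hμ hR1]
    exact hμ.sum_eq

lemma R_eq_zero (hR : ∀ x, 0 ≤ R x) (hR1 : ∀ t, ∑ y, R (t, y) = symm G μ t) {t : T}
    (h : symm G μ t = 0) (y : Y) : R (t, y) = 0 := by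
  have h1 := hR1 t
  rw [h] at h1
  exact (Finset.sum_eq_zero_iff_of_nonneg (fun y _ => hR (t, y))).mp h1 y (Finset.mem_univ y)

lemma symm_resamp (hR : ∀ x, 0 ≤ R x)
    (hR1 : ∀ t, ∑ y, R (t, y) = symm G μ t) (hinv : ∀ (g : G) x, R (g • x) = R x) :
    symm G (resamp G μ R) = R := by
  funext x
  obtain ⟨t, y⟩ := x
  have h1 : ∀ g : G, resamp G μ R (g⁻¹ • (t, y)) = μ (g⁻¹ • t) * (R (t, y) / symm G μ t) := by
    intro g
    unfold resamp
    rw [hinv]
    have : (g⁻¹ • (t, y)).1 = g⁻¹ • t := rfl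
    rw [this, symm_apply_smul]
  have h2 : symm G (resamp G μ R) (t, y) = symm G μ t * (R (t, y) / symm G μ t) := by
    conv_lhs => unfold symm
    simp_rw [h1]
    rw [← Finset.sum_mul]
    conv_rhs => rw [show symm G μ t = (∑ g : G, μ (g⁻¹ • t)) / (Fintype.card G : ℝ) from rfl]
    simp only [symm]
    ring
  rw [h2]
  by_cases h : symm G μ t = 0
  · rw [h, zero_mul, R_eq_zero G hR hR1 h]
  · rw [mul_div_cancel₀ _ h]

/-- `H_Q(y|b) = H_R(y|t)` -/
lemma hl_resamp (hμ : IsProb μ) (hR : ∀ x, 0 ≤ R x)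
    (hR1 : ∀ t, ∑ y, R (t, y) = symm G μ t) (hinv : ∀ (g : G) x, R (g • x) = R x) :
    hl (resamp G μ R) - hl μ = hl R - hl (symm G μ) := by
  set h : T → ℝ := fun t => ∑ y, Real.negMulLog (R (t, y) / symm G μ t) with hh
  have hinvh : ∀ (g : G) t, h (g • t) = h t := by
    intro g t
    simp only [hh]
    rw [← Equiv.sum_comp (MulAction.toPerm g) (fun y => Real.negMulLog (R (g • t, y) / symm G μ (g • t)))]
    apply Finset.sum_congr rfl
    intro y _
    have : R (g • t, (MulAction.toPerm g) y) = R (t, y) := hinv g (t, y)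
    rw [this, symm_apply_smul]
  have e1 : hl (resamp G μ R) = hl μ + ∑ t, μ t * h t := by
    unfold hl resamp
    rw [Fintype.sum_prod_type]
    simp only
    simp_rw [Real.negMulLog_mul, Finset.sum_add_distrib]
    congr 1
    · apply Finset.sum_congr rfl
      intro b _
      rw [← Finset.sum_mul]
      by_cases hb : μ b = 0
      · simp [hb]
      · rw [← Finset.sum_div, hR1, div_self (symm_pos G hμ hb).ne', one_mul]
    · apply Finset.sum_congr rfl
      intro b _
      rw [← Finset.mul_sum]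
  have e2 : hl R = hl (symm G μ) + ∑ t, symm G μ t * h t := by
    have hRe : R = fun x => symm G μ x.1 * (R x / symm G μ x.1) := by
      funext x
      obtain ⟨t, y⟩ := x
      by_cases h0 : symm G μ t = 0
      · rw [R_eq_zero G hR hR1 h0]; simp
      · rw [mul_div_cancel₀ _ h0]
    conv_lhs => rw [hRe]
    unfold hl
    rw [Fintype.sum_prod_type]
    simp only
    simp_rw [Real.negMulLog_mul, Finset.sum_add_distrib]
    congr 1
    · apply Finset.sum_congr rfl
      intro b _
      rw [← Finset.sum_mul]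
      by_cases hb : symm G μ b = 0
      · simp [hb]
      · rw [← Finset.sum_div, hR1, div_self hb, one_mul]
    · apply Finset.sum_congr rfl
      intro b _
      rw [← Finset.mul_sum]
  rw [e1, e2, sum_symm_mul G μ h hinvh]
  ring

end kernel

end Crest.Agent.R055
end

-- ▼ part R055/Energy
section

/-!
# R055 / Energy : the energy lemma (blueprint v2 of helper538, proof idea helper521)

For a joint law `Q` of `(b, y)` with `y` a tuple of subsets of `U b`:
`H(y) - 2 I(b;y) ≤ log ρ · E ∑|y_i| + (n/ρ) · E_y ∑_e P(e ∈ U b | y)²`.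
-/

set_option autoImplicit false

namespace Crest.Agent.R055

open Finset Real

/-- Gibbs' inequality, one term. -/
lemma mul_log_sub_le {w q : ℝ} (hw : 0 ≤ w) (hq : 0 ≤ q) (h : w ≠ 0 → q ≠ 0) :
    w * (log q - log w) ≤ q - w := by
  rcases hw.eq_or_lt with h0 | h0
  · rw [← h0]; simpa using hq
  · have hq0 : 0 < q := lt_of_le_of_ne hq (Ne.symm (h h0.ne'))
    have h1 : log (q / w) ≤ q / w - 1 := log_le_sub_one_of_pos (by positivity)
    rw [log_div hq0.ne' h0.ne'] at h1
    have h2 := mul_le_mul_of_nonneg_left h1 h0.le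
    have h3 : w * (q / w - 1) = q - w := by field_simp
    linarith

/-- sum over tuples of subsets of `V` of `∏ ρ^{-|y_i|}`. -/
lemma sum_tuples_pow {E : Type*} [Fintype E] [DecidableEq E] (n : ℕ) (V : Finset E) (x : ℝ) :
    ∑ y : Fin n → Finset E, (if ∀ i, y i ⊆ V then ∏ i, x ^ (y i).card else 0) =
      (1 + x) ^ (n * V.card) := by
  classical
  rw [← Finset.sum_filter]
  have h1 : (Finset.univ.filter fun y : Fin n → Finset E => ∀ i, y i ⊆ V) =
      Fintype.piFinset fun _ : Fin n => V.powerset := by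
    ext y
    simp [Fintype.mem_piFinset]
  rw [h1, ← Finset.prod_univ_sum (fun _ : Fin n => V.powerset) (fun _ s => x ^ s.card)]
  have h2 : ∑ s ∈ V.powerset, x ^ s.card = (1 + x) ^ V.card := by
    rw [Finset.sum_powerset_apply_card (fun k => x ^ k), add_comm (1 : ℝ) x, add_pow]
    refine Finset.sum_congr rfl fun k _ => ?_
    simp [nsmul_eq_mul, mul_comm]
  rw [Finset.prod_const, h2, Finset.card_univ, Fintype.card_fin, ← pow_mul, mul_comm]

section energy
variable {T E : Type*} [Fintype T] [Fintype E] [DecidableEq E] {n : ℕ}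

/-- The energy lemma: `H(y) - 2 I(b;y) ≤ log ρ · E ∑|y_i| + (n/ρ) · κ`. -/
theorem energy_lemma (U : T → Finset E) (Q : T → (Fin n → Finset E) → ℝ)
    (hQ0 : ∀ b y, 0 ≤ Q b y) (hQ1 : ∑ b, ∑ y, Q b y = 1)
    (hsupp : ∀ b y, Q b y ≠ 0 → ∀ i, y i ⊆ U b) (ρ : ℝ) (hρ : 0 < ρ) :
    2 * ∑ b, ∑ y, negMulLog (Q b y) - 2 * ∑ b, negMulLog (∑ y, Q b y)
        - ∑ y, negMulLog (∑ b, Q b y) ≤
      Real.log ρ * ∑ b, ∑ y, Q b y * ∑ i, ((y i).card : ℝ) +
        n / ρ * ∑ y, ∑ e, (∑ b, if e ∈ U b then Q b y else 0) ^ 2 / ∑ b, Q b y := by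
  classical
  set Qb : T → ℝ := fun b => ∑ y, Q b y with hQb
  set Qy : (Fin n → Finset E) → ℝ := fun y => ∑ b, Q b y with hQy
  have hQb0 : ∀ b, 0 ≤ Qb b := fun b => Finset.sum_nonneg fun y _ => hQ0 b y
  have hQy0 : ∀ y, 0 ≤ Qy y := fun y => Finset.sum_nonneg fun b _ => hQ0 b y
  have hQb_pos : ∀ b y, Q b y ≠ 0 → 0 < Qb b := fun b y h =>
    lt_of_lt_of_le (lt_of_le_of_ne (hQ0 b y) (Ne.symm h))
      (Finset.single_le_sum (f := fun y => Q b y) (fun y _ => hQ0 b y) (Finset.mem_univ y))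
  have hQy_pos : ∀ b y, Q b y ≠ 0 → 0 < Qy y := fun b y h =>
    lt_of_lt_of_le (lt_of_le_of_ne (hQ0 b y) (Ne.symm h))
      (Finset.single_le_sum (f := fun b => Q b y) (fun b _ => hQ0 b y) (Finset.mem_univ b))
  have hQyz : ∀ b y, Qy y = 0 → Q b y = 0 := fun b y h => by
    by_contra hne
    exact absurd h (hQy_pos b y hne).ne'
  set w : T → T → (Fin n → Finset E) → ℝ := fun b1 b2 y => Q b1 y * Q b2 y / Qy y with hw
  have hw0 : ∀ b1 b2 y, 0 ≤ w b1 b2 y := fun b1 b2 y =>
    div_nonneg (mul_nonneg (hQ0 _ _) (hQ0 _ _)) (hQy0 _)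
  -- marginalisation of `w`
  have hwm : ∀ b1 y, ∑ b2, w b1 b2 y = Q b1 y := by
    intro b1 y
    simp only [hw]
    rw [← Finset.sum_div, ← Finset.mul_sum]
    by_cases h : Qy y = 0
    · rw [hQyz b1 y h]; simp
    · exact mul_div_cancel_right₀ _ h
  have hwsymm : ∀ b1 b2 y, w b1 b2 y = w b2 b1 y := by
    intro b1 b2 y; simp only [hw]; rw [mul_comm (Q b1 y)]
  -- the comparison function
  set x : ℝ := 1 / ρ with hx
  have hx0 : 0 < x := by positivity
  set q : T → T → (Fin n → Finset E) → ℝ := fun b1 b2 y =>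
    Qb b1 * Qb b2 / (1 + x) ^ (n * (U b1 ∩ U b2).card) *
      (if ∀ i, y i ⊆ U b1 ∩ U b2 then ∏ i, x ^ (y i).card else 0) with hq
  have hq0 : ∀ b1 b2 y, 0 ≤ q b1 b2 y := by
    intro b1 b2 y
    simp only [hq]
    refine mul_nonneg (div_nonneg (mul_nonneg (hQb0 _) (hQb0 _)) (by positivity)) ?_
    split_ifs
    · exact Finset.prod_nonneg fun i _ => by positivity
    · exact le_rfl
  have hwne : ∀ b1 b2 y, w b1 b2 y ≠ 0 → Q b1 y ≠ 0 ∧ Q b2 y ≠ 0 := by
    intro b1 b2 y h
    constructor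
    · intro h1; apply h; simp only [hw]; rw [h1]; simp
    · intro h1; apply h; simp only [hw]; rw [h1]; simp
  have hcond : ∀ b1 b2 y, w b1 b2 y ≠ 0 → ∀ i, y i ⊆ U b1 ∩ U b2 := by
    intro b1 b2 y h i
    exact Finset.subset_inter (hsupp b1 y (hwne b1 b2 y h).1 i) (hsupp b2 y (hwne b1 b2 y h).2 i)
  have hqne : ∀ b1 b2 y, w b1 b2 y ≠ 0 → 0 < q b1 b2 y := by
    intro b1 b2 y h
    simp only [hq]
    rw [if_pos (hcond b1 b2 y h)]
    have h1 := hQb_pos b1 y (hwne b1 b2 y h).1
    have h2 := hQb_pos b2 y (hwne b1 b2 y h).2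
    positivity
  have hterm : ∀ b1 b2 y, w b1 b2 y * (Real.log (q b1 b2 y) - Real.log (w b1 b2 y)) ≤
      q b1 b2 y - w b1 b2 y := fun b1 b2 y =>
    mul_log_sub_le (hw0 _ _ _) (hq0 _ _ _) fun h => (hqne b1 b2 y h).ne'
  -- total masses
  have hqsum : ∑ b1, ∑ b2, ∑ y, q b1 b2 y = 1 := by
    have h1 : ∀ b1 b2, ∑ y, q b1 b2 y = Qb b1 * Qb b2 := by
      intro b1 b2
      simp only [hq]
      rw [← Finset.mul_sum, sum_tuples_pow]
      have : (1 + x) ^ (n * (U b1 ∩ U b2).card) ≠ 0 := by positivity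
      field_simp
    simp only [h1]
    have h2 : ∑ b, Qb b = 1 := hQ1
    simp only [← Finset.mul_sum, h2, mul_one]
  have hwsum : ∑ b1, ∑ b2, ∑ y, w b1 b2 y = 1 := by
    have h1 : ∀ b1, ∑ b2, ∑ y, w b1 b2 y = ∑ y, Q b1 y := by
      intro b1
      rw [Finset.sum_comm]
      exact Finset.sum_congr rfl fun y _ => hwm b1 y
    simp only [h1]
    exact hQ1
  -- Gibbs
  have hG : ∑ b1, ∑ b2, ∑ y, w b1 b2 y * (Real.log (q b1 b2 y) - Real.log (w b1 b2 y)) ≤ 0 := by
    calc ∑ b1, ∑ b2, ∑ y, w b1 b2 y * (Real.log (q b1 b2 y) - Real.log (w b1 b2 y))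
        ≤ ∑ b1, ∑ b2, ∑ y, (q b1 b2 y - w b1 b2 y) :=
          Finset.sum_le_sum fun b1 _ => Finset.sum_le_sum fun b2 _ =>
            Finset.sum_le_sum fun y _ => hterm b1 b2 y
      _ = 0 := by
          simp only [Finset.sum_sub_distrib]
          rw [hqsum, hwsum, sub_self]
  -- expansion of the logarithms
  set α : T → (Fin n → Finset E) → ℝ := fun b y => Real.log (Qb b) - Real.log (Q b y) with hα
  set β : (Fin n → Finset E) → ℝ := fun y =>
    Real.log (Qy y) - Real.log ρ * ∑ i, ((y i).card : ℝ) with hβ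
  set γ : T → T → ℝ := fun b1 b2 =>
    (n : ℝ) * ((U b1 ∩ U b2).card : ℝ) * Real.log (1 + x) with hγ
  have hexp : ∀ b1 b2 y, w b1 b2 y * (Real.log (q b1 b2 y) - Real.log (w b1 b2 y)) =
      w b1 b2 y * (α b1 y + α b2 y + β y - γ b1 b2) := by
    intro b1 b2 y
    by_cases h : w b1 b2 y = 0
    · rw [h]; simp
    · congr 1
      have hb1 := (hwne b1 b2 y h).1
      have hb2 := (hwne b1 b2 y h).2
      have e1 : Real.log (w b1 b2 y) =
          Real.log (Q b1 y) + Real.log (Q b2 y) - Real.log (Qy y) := by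
        simp only [hw]
        rw [Real.log_div (mul_ne_zero hb1 hb2) (hQy_pos b1 y hb1).ne', Real.log_mul hb1 hb2]
      have e2 : Real.log (∏ i, x ^ (y i).card) = - (Real.log ρ * ∑ i, ((y i).card : ℝ)) := by
        rw [Real.log_prod (fun i _ => (pow_pos hx0 _).ne')]
        simp only [Real.log_pow, hx, one_div, Real.log_inv]
        rw [← Finset.sum_mul]
        ring
      have hQ1' := (hQb_pos b1 y hb1).ne'
      have hQ2' := (hQb_pos b2 y hb2).ne'
      have h1x : (1 + x) ^ (n * (U b1 ∩ U b2).card) ≠ 0 := by positivity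
      have hprod : ∏ i, x ^ (y i).card ≠ 0 := Finset.prod_ne_zero_iff.2 fun i _ => (pow_pos hx0 _).ne'
      have e3 : Real.log (q b1 b2 y) = Real.log (Qb b1) + Real.log (Qb b2)
          - γ b1 b2 - Real.log ρ * ∑ i, ((y i).card : ℝ) := by
        simp only [hq]
        rw [if_pos (hcond b1 b2 y h), Real.log_mul (div_ne_zero (mul_ne_zero hQ1' hQ2') h1x) hprod,
          Real.log_div (mul_ne_zero hQ1' hQ2') h1x, Real.log_mul hQ1' hQ2', e2, Real.log_pow]
        simp only [hγ]
        push_cast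
        ring
      rw [e1, e3]
      simp only [hα, hβ]
      ring
  simp only [hexp] at hG
  -- evaluate the sum
  have hA1 : ∑ b1, ∑ b2, ∑ y, w b1 b2 y * α b1 y = ∑ b, ∑ y, Q b y * α b y := by
    refine Finset.sum_congr rfl fun b1 _ => ?_
    rw [Finset.sum_comm]
    refine Finset.sum_congr rfl fun y _ => ?_
    rw [← Finset.sum_mul, hwm]
  have hA2 : ∑ b1, ∑ b2, ∑ y, w b1 b2 y * α b2 y = ∑ b, ∑ y, Q b y * α b y := by
    rw [Finset.sum_comm, ← hA1]
    refine Finset.sum_congr rfl fun b1 _ => Finset.sum_congr rfl fun b2 _ =>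
      Finset.sum_congr rfl fun y _ => ?_
    rw [hwsymm b2 b1 y]
  have hB : ∑ b1, ∑ b2, ∑ y, w b1 b2 y * β y = ∑ b, ∑ y, Q b y * β y := by
    refine Finset.sum_congr rfl fun b1 _ => ?_
    rw [Finset.sum_comm]
    refine Finset.sum_congr rfl fun y _ => ?_
    rw [← Finset.sum_mul, hwm]
  have hsplit : ∑ b1, ∑ b2, ∑ y, w b1 b2 y * (α b1 y + α b2 y + β y - γ b1 b2) =
      2 * ∑ b, ∑ y, Q b y * α b y + ∑ b, ∑ y, Q b y * β y
        - ∑ b1, ∑ b2, ∑ y, w b1 b2 y * γ b1 b2 := by
    have : ∀ b1 b2 y, w b1 b2 y * (α b1 y + α b2 y + β y - γ b1 b2) =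
        w b1 b2 y * α b1 y + w b1 b2 y * α b2 y + w b1 b2 y * β y - w b1 b2 y * γ b1 b2 := by
      intro b1 b2 y; ring
    simp only [this, Finset.sum_add_distrib, Finset.sum_sub_distrib]
    rw [hA1, hA2, hB]
    ring
  rw [hsplit] at hG
  -- entropies
  have hE1 : ∑ b, ∑ y, Q b y * α b y =
      ∑ b, ∑ y, negMulLog (Q b y) - ∑ b, negMulLog (Qb b) := by
    simp only [hα, mul_sub, Finset.sum_sub_distrib, negMulLog]
    have h1 : ∀ b, ∑ y, Q b y * Real.log (Qb b) = Qb b * Real.log (Qb b) := fun b => by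
      rw [← Finset.sum_mul]
    simp only [h1, neg_mul, Finset.sum_neg_distrib]
    ring
  have hE2 : ∑ b, ∑ y, Q b y * β y =
      - ∑ y, negMulLog (Qy y) - Real.log ρ * ∑ b, ∑ y, Q b y * ∑ i, ((y i).card : ℝ) := by
    simp only [hβ, mul_sub, Finset.sum_sub_distrib, negMulLog]
    have h1 : ∑ b, ∑ y, Q b y * Real.log (Qy y) = ∑ y, Qy y * Real.log (Qy y) := by
      rw [Finset.sum_comm]
      refine Finset.sum_congr rfl fun y _ => ?_
      rw [← Finset.sum_mul]
    have h2 : ∑ b, ∑ y, Q b y * (Real.log ρ * ∑ i, ((y i).card : ℝ)) =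
        Real.log ρ * ∑ b, ∑ y, Q b y * ∑ i, ((y i).card : ℝ) := by
      simp only [Finset.mul_sum]
      refine Finset.sum_congr rfl fun b _ => Finset.sum_congr rfl fun y _ =>
        Finset.sum_congr rfl fun i _ => ?_
      ring
    rw [h1, h2]
    simp only [neg_mul, Finset.sum_neg_distrib, neg_neg]
  -- the energy term
  have hκ : ∑ b1, ∑ b2, ∑ y, w b1 b2 y * ((U b1 ∩ U b2).card : ℝ) =
      ∑ y, ∑ e, (∑ b, if e ∈ U b then Q b y else 0) ^ 2 / Qy y := by
    have h1 : ∀ b1 b2, ((U b1 ∩ U b2).card : ℝ) =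
        ∑ e, (if e ∈ U b1 then (1 : ℝ) else 0) * (if e ∈ U b2 then 1 else 0) := by
      intro b1 b2
      rw [Finset.card_eq_sum_ones, Nat.cast_sum, ← Finset.sum_filter_add_sum_filter_not
        (Finset.univ : Finset E) (fun e => e ∈ U b1 ∩ U b2)]
      have h2 : ∑ e ∈ Finset.univ.filter (fun e => ¬ e ∈ U b1 ∩ U b2),
          (if e ∈ U b1 then (1 : ℝ) else 0) * (if e ∈ U b2 then 1 else 0) = 0 := by
        refine Finset.sum_eq_zero fun e he => ?_
        rw [Finset.mem_filter, Finset.mem_inter, not_and_or] at he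
        rcases he.2 with h | h <;> simp [h]
      rw [h2, add_zero]
      have h3 : (Finset.univ.filter fun e => e ∈ U b1 ∩ U b2) = U b1 ∩ U b2 := by
        ext e; simp
      rw [h3]
      refine Finset.sum_congr rfl fun e he => ?_
      rw [Finset.mem_inter] at he
      simp [he.1, he.2]
    have h4 : ∀ y, ∑ b1, ∑ b2, w b1 b2 y * ((U b1 ∩ U b2).card : ℝ) =
        ∑ e, (∑ b, if e ∈ U b then Q b y else 0) ^ 2 / Qy y := by
      intro y
      simp only [h1, Finset.mul_sum]
      have h5 : ∀ e, (∑ b, if e ∈ U b then Q b y else 0) ^ 2 / Qy y =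
          ∑ b1, ∑ b2, w b1 b2 y * ((if e ∈ U b1 then (1 : ℝ) else 0) *
            (if e ∈ U b2 then 1 else 0)) := by
        intro e
        rw [sq, Finset.sum_mul_sum, Finset.sum_div]
        refine Finset.sum_congr rfl fun b1 _ => ?_
        rw [Finset.sum_div]
        refine Finset.sum_congr rfl fun b2 _ => ?_
        simp only [hw]
        split_ifs <;> simp
      simp only [h5]
      calc ∑ b1, ∑ b2, ∑ e, w b1 b2 y * ((if e ∈ U b1 then (1 : ℝ) else 0) *
            (if e ∈ U b2 then 1 else 0))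
          = ∑ b1, ∑ e, ∑ b2, w b1 b2 y * ((if e ∈ U b1 then (1 : ℝ) else 0) *
            (if e ∈ U b2 then 1 else 0)) := Finset.sum_congr rfl fun b1 _ => Finset.sum_comm
        _ = _ := Finset.sum_comm
    calc ∑ b1, ∑ b2, ∑ y, w b1 b2 y * ((U b1 ∩ U b2).card : ℝ)
        = ∑ b1, ∑ y, ∑ b2, w b1 b2 y * ((U b1 ∩ U b2).card : ℝ) :=
          Finset.sum_congr rfl fun b1 _ => Finset.sum_comm
      _ = ∑ y, ∑ b1, ∑ b2, w b1 b2 y * ((U b1 ∩ U b2).card : ℝ) := Finset.sum_comm
      _ = _ := Finset.sum_congr rfl fun y _ => h4 y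
  set κ : ℝ := ∑ y, ∑ e, (∑ b, if e ∈ U b then Q b y else 0) ^ 2 / Qy y with hκdef
  have hκ0 : 0 ≤ κ := Finset.sum_nonneg fun y _ => Finset.sum_nonneg fun e _ =>
    div_nonneg (sq_nonneg _) (hQy0 y)
  have hΓ : ∑ b1, ∑ b2, ∑ y, w b1 b2 y * γ b1 b2 = n * Real.log (1 + x) * κ := by
    rw [← hκ]
    simp only [Finset.mul_sum, hγ]
    refine Finset.sum_congr rfl fun b1 _ => Finset.sum_congr rfl fun b2 _ =>
      Finset.sum_congr rfl fun y _ => ?_
    ring
  have hlog : Real.log (1 + x) ≤ x := by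
    have := Real.log_le_sub_one_of_pos (show (0 : ℝ) < 1 + x by positivity)
    linarith
  have hfin : (n : ℝ) * Real.log (1 + x) * κ ≤ n / ρ * κ := by
    refine mul_le_mul_of_nonneg_right ?_ hκ0
    have h1 := mul_le_mul_of_nonneg_left hlog (Nat.cast_nonneg (α := ℝ) n)
    refine h1.trans (le_of_eq ?_)
    simp only [hx]
    ring
  rw [hΓ, hE1, hE2] at hG
  linarith

end energy

end Crest.Agent.R055
end

-- ▼ part R055/Gain
section

/-! Row 55: the GAIN inequality. -/

set_option autoImplicit false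
set_option linter.unusedSectionVars false
open Finset Real
open scoped Pointwise

namespace Crest.Agent.R055

section
variable {G : Type} [Group G] [Fintype G] {E : Type} [Fintype E] [DecidableEq E]
    [MulAction G E] {H : Finset E}

lemma card_smul_eq (g : G) (A : Finset E) : ((g • A).card : ℝ) = (A.card : ℝ) := by
  rw [Finset.card_smul_finset]

lemma energy_nonneg (w : Finset E → ℝ) : 0 ≤ energy w := by
  unfold energy
  exact Finset.sum_nonneg (fun e _ => sq_nonneg _)

lemma push_ne_zero {S S' : Type*} [Fintype S] {φ : S → S'} {w : S → ℝ} {s' : S'}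
    (h : push φ w s' ≠ 0) : ∃ s, φ s = s' ∧ w s ≠ 0 := by
  classical
  unfold push at h
  obtain ⟨s, -, hs⟩ := Finset.exists_ne_zero_of_sum_ne_zero h
  by_cases h1 : φ s = s'
  · exact ⟨s, h1, by simpa [h1] using hs⟩
  · simp [h1] at hs

/-- averaged extremality: `lam * κ ≤ H(gb) + H(y) - H(b,y) - l E|U| + Ψ`. -/
lemma avg_extremal {l lam Ψ : ℝ} (hE : ExtremalHom G H l lam Ψ) (B : Blk G H)
    {Y : Type} [Fintype Y] (Q : B.T × Y → ℝ) (hQ : IsProb Q)
    (hQ1 : ∀ b, ∑ y, Q (b, y) = B.μ b) :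
    lam * (∑ y, ∑ e, (∑ b, if e ∈ B.U b then Q (b, y) else 0) ^ 2 / ∑ b, Q (b, y)) ≤
      hl (symm G B.μ) + hl (fun y => ∑ b, Q (b, y)) - hl Q - l * ecard B.μ B.U + Ψ := by
  classical
  -- per `y`
  set w : Y → Finset E → ℝ := fun y => push B.U (fun b => Q (b, y)) with hw
  have hsum : ∀ y, ∑ A, w y A = ∑ b, Q (b, y) := fun y => sum_push _ _
  have hen : ∀ y, energy (w y) = ∑ e, (∑ b, if e ∈ B.U b then Q (b, y) else 0) ^ 2 := by
    intro y
    unfold energy
    apply Finset.sum_congr rfl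
    intro e _
    congr 1
    have h1 : ∀ A, (if e ∈ A then w y A else 0) = w y A * (if e ∈ A then 1 else 0) := by
      intro A; split_ifs <;> simp
    simp_rw [h1]
    rw [hw]
    simp only
    rw [sum_push_mul B.U (fun b => Q (b, y)) (fun A => if e ∈ A then (1 : ℝ) else 0)]
    apply Finset.sum_congr rfl
    intro b _
    split_ifs <;> simp
  have hec : ∀ y, ecard (w y) (fun A => A) = ∑ b, Q (b, y) * ((B.U b).card : ℝ) := by
    intro y
    rw [hw]
    simp only
    rw [ecard_push]
    rfl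
  have hdv : ∀ y, Dv G (w y) ≤ Dv G (fun b => Q (b, y)) := by
    intro y
    exact Dv_push_le G B.equi (fun b => hQ.nonneg _)
  have h1 : ∀ y, lam * ((∑ e, (∑ b, if e ∈ B.U b then Q (b, y) else 0) ^ 2) / ∑ b, Q (b, y)) ≤
      Dv G (fun b => Q (b, y)) - l * (∑ b, Q (b, y) * ((B.U b).card : ℝ)) + Ψ * ∑ b, Q (b, y) := by
    intro y
    have := hE (w y) (push_nonneg (fun b => hQ.nonneg _)) (by
      intro A hA
      obtain ⟨b, hb, hb'⟩ := push_ne_zero hA
      rw [← hb]
      apply B.supp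
      intro h0
      have h2 := hQ1 b
      rw [h0] at h2
      exact hb' ((Finset.sum_eq_zero_iff_of_nonneg (fun y _ => hQ.nonneg (b, y))).mp h2 y
        (Finset.mem_univ y)))
    rw [hsum, hen, hec] at this
    linarith [hdv y]
  -- sum over y
  have h2 : lam * (∑ y, ∑ e, (∑ b, if e ∈ B.U b then Q (b, y) else 0) ^ 2 / ∑ b, Q (b, y)) =
      ∑ y, lam * ((∑ e, (∑ b, if e ∈ B.U b then Q (b, y) else 0) ^ 2) / ∑ b, Q (b, y)) := by
    rw [Finset.mul_sum]
    apply Finset.sum_congr rfl
    intro y _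
    rw [Finset.sum_div]
  rw [h2]
  refine le_trans (Finset.sum_le_sum (fun y _ => h1 y)) ?_
  rw [Finset.sum_add_distrib, Finset.sum_sub_distrib, ← Finset.mul_sum, ← Finset.mul_sum]
  have h3 : ∑ y, ∑ b, Q (b, y) = 1 := by
    rw [← hQ.sum_eq, Fintype.sum_prod_type_right]
  have h4 : ∑ y, ∑ b, Q (b, y) * ((B.U b).card : ℝ) = ecard B.μ B.U := by
    rw [Finset.sum_comm]
    unfold ecard
    apply Finset.sum_congr rfl
    intro b _
    rw [← Finset.sum_mul, hQ1]
  have h5 : ∑ y, Dv G (fun b => Q (b, y)) ≤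
      hl (symm G B.μ) + hl (fun y => ∑ b, Q (b, y)) - hl Q := by
    set W : B.T × Y → ℝ := fun x => symm G (fun b => Q (b, x.2)) x.1 with hW
    have hWp : IsProb W := by
      constructor
      · intro x; exact symm_nonneg G (fun b => hQ.nonneg _) _
      · rw [Fintype.sum_prod_type_right]
        simp only [hW]
        simp_rw [sum_symm_eq]
        exact h3
    have h6 := hl_prod_le hWp
    have h7 : (fun a => ∑ b, W (a, b)) = symm G B.μ := by
      funext t
      simp only [hW, symm]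
      rw [← Finset.sum_div, Finset.sum_comm]
      congr 1
      apply Finset.sum_congr rfl
      intro g _
      exact hQ1 _
    have h8 : (fun b => ∑ a, W (a, b)) = fun y => ∑ b, Q (b, y) := by
      funext y
      simp only [hW]
      rw [sum_symm_eq]
    rw [h7, h8] at h6
    have h9 : ∑ y, Dv G (fun b => Q (b, y)) = hl W - hl Q := by
      unfold Dv
      rw [Finset.sum_sub_distrib]
      congr 1
      · unfold hl
        rw [Fintype.sum_prod_type_right]
      · unfold hl
        rw [Fintype.sum_prod_type_right]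
    linarith
  rw [h3, h4]
  linarith

/-- GAIN. -/
theorem gain {l lam rho Ψ : ℝ} (hlam : 0 < lam) (hrho : 0 < rho)
    (hE : ExtremalHom G H l lam Ψ) : GainStmt G H l lam rho Ψ := by
  classical
  intro B B' n K hKsub hKeq hKun
  set Kt : B.T × B'.T → (Fin n → Finset E) := fun x i => K i x with hKt
  have hKteq : ∀ (g : G) (x : B.T × B'.T), Kt (g • x) = g • Kt x := by
    intro g x; funext i; exact hKeq i g x
  set μ2 : B.T × B'.T → ℝ := fun x => B.μ x.1 * B'.μ x.2 with hμ2
  have hμ2p : IsProb μ2 := (B.prod B').prob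
  set P : B.T × B'.T → ℝ := symm G μ2 with hPdef
  have hP : IsProb P := isProb_symm G hμ2p
  have hPlaw : (B.prod B').law = P := rfl
  have hP0 := hP.nonneg
  set μ := B.μ with hμdef
  have hμ : IsProb μ := B.prob
  -- joint law of (β, K)
  set R : B.T × (Fin n → Finset E) → ℝ := push (fun x : B.T × B'.T => (x.1, Kt x)) P with hR
  have hReq : ∀ (g : G) (x : B.T × B'.T),
      (fun x : B.T × B'.T => (x.1, Kt x)) (g • x) = g • (fun x : B.T × B'.T => (x.1, Kt x)) x := by
    intro g x
    simp only [hKteq]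
    rfl
  have hR0 : ∀ x, 0 ≤ R x := push_nonneg hP0
  have hRinv : ∀ (g : G) x, R (g • x) = R x := by
    intro g x
    rw [hR, hPdef, push_symm G hReq, symm_apply_smul]
  -- marginals of P
  have hm1 : push (fun x : B.T × B'.T => x.1) P = symm G μ := by
    rw [hPdef, push_symm G (φ := fun x : B.T × B'.T => x.1) (fun g x => rfl)]
    congr 1
    funext t
    have := push_fst μ2 t
    rw [show (fun x : B.T × B'.T => x.1) = Prod.fst from rfl, this]
    simp only [hμ2]
    rw [← Finset.mul_sum, B'.prob.sum_eq, mul_one]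
  have hm2 : push (fun x : B.T × B'.T => x.2) P = symm G B'.μ := by
    rw [hPdef, push_symm G (φ := fun x : B.T × B'.T => x.2) (fun g x => rfl)]
    congr 1
    funext t
    have := push_snd μ2 t
    rw [show (fun x : B.T × B'.T => x.2) = Prod.snd from rfl, this]
    simp only [hμ2]
    rw [← Finset.sum_mul, B.prob.sum_eq, one_mul]
  have hR1 : ∀ t, ∑ y, R (t, y) = symm G μ t := by
    intro t
    rw [← push_fst R t, hR, push_push, ← hm1]
  set Q : B.T × (Fin n → Finset E) → ℝ := resamp G μ R with hQdef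
  have hQ : IsProb Q := isProb_resamp G hμ hR0 hR1
  have hQ1 : ∀ b, ∑ y, Q (b, y) = μ b := resamp_sum G hμ hR1
  have hQsymm : symm G Q = R := symm_resamp G hR0 hR1 hRinv
  have hQent : hl Q - hl μ = hl R - hl (symm G μ) := hl_resamp G hμ hR0 hR1 hRinv
  set Qy : (Fin n → Finset E) → ℝ := fun y => ∑ b, Q (b, y) with hQy
  have hQyp : Qy = push Prod.snd Q := by
    funext y; rw [push_snd]
  have hQyprob : IsProb Qy := by rw [hQyp]; exact isProb_push hQ
  have hQysymm : symm G Qy = push Kt P := by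
    rw [hQyp, ← push_symm G (φ := Prod.snd) (fun g x => rfl), hQsymm, hR, push_push]
  -- supports
  have hRsupp : ∀ b y, R (b, y) ≠ 0 → ∀ i, y i ⊆ B.U b := by
    intro b y hne i
    obtain ⟨x, hx, -⟩ := push_ne_zero hne
    simp only [Prod.mk.injEq] at hx
    rw [← hx.1, ← hx.2]
    exact hKsub i x
  have hQsupp : ∀ b y, Q (b, y) ≠ 0 → (∀ i, y i ⊆ B.U b) ∧ μ b ≠ 0 := by
    intro b y hne
    have h1 : μ b ≠ 0 := by
      intro h0; apply hne; simp only [hQdef, resamp, h0, zero_mul]
    have h2 : R (b, y) ≠ 0 := by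
      intro h0; apply hne; simp only [hQdef, resamp, h0, zero_div, mul_zero]
    exact ⟨hRsupp b y h2, h1⟩
  -- energy lemma
  have hen := energy_lemma B.U (fun b y => Q (b, y)) (fun b y => hQ.nonneg _)
    (by rw [← Fintype.sum_prod_type]; exact hQ.sum_eq)
    (fun b y hne => (hQsupp b y hne).1) rho hrho
  -- averaged extremality
  have hav := avg_extremal hE B Q hQ hQ1
  set κ : ℝ := ∑ y, ∑ e, (∑ b, if e ∈ B.U b then Q (b, y) else 0) ^ 2 / ∑ b, Q (b, y) with hκ
  have e1 : ∑ b, ∑ y, Real.negMulLog (Q (b, y)) = hl Q := by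
    unfold hl; rw [Fintype.sum_prod_type]
  have e2 : ∑ b, Real.negMulLog (∑ y, Q (b, y)) = hl μ := by
    unfold hl; simp_rw [hQ1]
  have e3 : ∑ y, Real.negMulLog (∑ b, Q (b, y)) = hl Qy := rfl
  -- expectation of ∑ |y_i|
  have e4 : ∑ b, ∑ y, Q (b, y) * ∑ i, ((y i).card : ℝ) = ∑ i, ecard P (K i) := by
    have h1 : ∑ b, ∑ y, Q (b, y) * ∑ i, ((y i).card : ℝ)
        = ∑ x, Q x * (fun x : B.T × (Fin n → Finset E) => ∑ i, ((x.2 i).card : ℝ)) x := by
      rw [Fintype.sum_prod_type]
    rw [h1, ← sum_symm_mul G Q _ (by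
      intro g x
      apply Finset.sum_congr rfl
      intro i _
      exact card_smul_eq g (x.2 i)), hQsymm, hR, sum_push_mul]
    simp only [ecard, Finset.mul_sum]
    rw [Finset.sum_comm]
  rw [e1, e2, e3, e4] at hen
  -- the law of the union
  set V : Finset E → ℝ := push (fun y : Fin n → Finset E => Finset.univ.biUnion y) Qy with hV
  have hVeq : ∀ (g : G) (y : Fin n → Finset E),
      Finset.univ.biUnion (g • y) = g • Finset.univ.biUnion y := by
    intro g y
    ext e
    simp only [Finset.mem_biUnion, Finset.mem_univ, true_and, Pi.smul_apply]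
    constructor
    · rintro ⟨i, hi⟩
      obtain ⟨e', he', rfl⟩ := Finset.mem_smul_finset.mp hi
      exact Finset.mem_smul_finset.mpr ⟨e', Finset.mem_biUnion.mpr ⟨i, Finset.mem_univ _, he'⟩, rfl⟩
    · intro h
      obtain ⟨e', he', rfl⟩ := Finset.mem_smul_finset.mp h
      obtain ⟨i, -, hi⟩ := Finset.mem_biUnion.mp he'
      exact ⟨i, Finset.mem_smul_finset.mpr ⟨e', hi, rfl⟩⟩
  have hVp : IsProb V := isProb_push hQyprob
  have hVsupp : ∀ A, V A ≠ 0 → A ⊆ H := by
    intro A hA
    obtain ⟨y, hy, hy'⟩ := push_ne_zero hA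
    obtain ⟨b, -, hb⟩ := Finset.exists_ne_zero_of_sum_ne_zero hy'
    have h1 := hQsupp b y hb
    rw [← hy]
    intro e he
    obtain ⟨i, -, hi⟩ := Finset.mem_biUnion.mp he
    exact B.supp b h1.2 (h1.1 i hi)
  have hVext := hE V hVp.nonneg hVsupp
  have hVdp : Dv G V ≤ Dv G Qy := Dv_push_le G hVeq hQyprob.nonneg
  have hVcard : ecard V (fun A => A) = ecard P (fun x => B.U x.1 ∩ B'.U x.2) := by
    rw [hV, ecard_push]
    have h1 : ecard Qy (fun s => Finset.univ.biUnion s)
        = ecard (symm G Qy) (fun s => Finset.univ.biUnion s) := by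
      unfold ecard
      rw [sum_symm_mul G Qy (fun s => ((Finset.univ.biUnion s).card : ℝ))]
      intro g s
      rw [hVeq, card_smul_eq]
    rw [h1, hQysymm, ecard_push]
    congr 1
    funext x
    exact hKun x
  have hVnn : 0 ≤ Dv G V - l * ecard P (fun x => B.U x.1 ∩ B'.U x.2) + Ψ := by
    rw [hVcard, hVp.sum_eq, div_one, mul_one] at hVext
    have := mul_nonneg hlam.le (energy_nonneg V)
    linarith
  -- `Dv Qy`
  have hDQy : Dv G Qy = ent P Kt - hl Qy := by
    unfold Dv
    rw [hQysymm, ← ent_eq_hl]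
  -- entropies under P
  have f1 : ent P (fun x : B.T × B'.T => (Kt x, x.1)) = hl R := by
    rw [hR, ← ent_eq_hl]
    apply ent_congr
    intro x y
    simp only [Prod.mk.injEq]
    exact and_comm
  have f2 : ent P (fun x : B.T × B'.T => x.1) = hl (symm G μ) := by
    rw [ent_eq_hl, hm1]
  have f3 : ent P (fun x : B.T × B'.T => x.2) = hl (symm G B'.μ) := by
    rw [ent_eq_hl, hm2]
  have hsub := ent_submod hP (fun x : B.T × B'.T => x.1) (fun x => x.2) Kt
  have f4 : ent P (fun x : B.T × B'.T => (x.1, x.2, Kt x)) = hl P := by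
    rw [← ent_id P]
    apply ent_congr
    intro x y
    constructor
    · intro h
      simp only [Prod.mk.injEq] at h
      exact Prod.ext h.1 h.2.1
    · intro h; rw [h]
  have f5 : ent P (fun x : B.T × B'.T => (x.1, Kt x)) = hl R := by
    rw [ent_eq_hl, hR]
  have f6 : ent P (fun x : B.T × B'.T => (x.2, Kt x)) = ent P (fun x : B.T × B'.T => (Kt x, x.2)) := by
    apply ent_congr
    intro x y
    simp only [Prod.mk.injEq]
    exact and_comm
  rw [f4, f5, f6] at hsub
  -- F's
  have hc : ecard μ2 (fun x => B.U x.1 ∪ B'.U x.2) =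
      ecard μ B.U + ecard B'.μ B'.U - ecard P (fun x => B.U x.1 ∩ B'.U x.2) := by
    have h1 : ecard P (fun x => B.U x.1 ∩ B'.U x.2) = ecard μ2 (fun x => B.U x.1 ∩ B'.U x.2) := by
      unfold ecard
      rw [hPdef]
      apply sum_symm_mul
      intro g x
      have h2 : B.U (g • x).1 = g • B.U x.1 := B.equi g x.1
      have h3 : B'.U (g • x).2 = g • B'.U x.2 := B'.equi g x.2
      change ((B.U (g • x).1 ∩ B'.U (g • x).2).card : ℝ) = ((B.U x.1 ∩ B'.U x.2).card : ℝ)
      rw [h2, h3, ← Finset.smul_finset_inter, card_smul_eq]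
    rw [h1]
    have h4 : ecard μ B.U = ∑ x : B.T × B'.T, μ2 x * ((B.U x.1).card : ℝ) := by
      unfold ecard
      rw [Fintype.sum_prod_type]
      apply Finset.sum_congr rfl
      intro b _
      simp only [hμ2]
      rw [← Finset.sum_mul, ← Finset.mul_sum, B'.prob.sum_eq, mul_one]
    have h5 : ecard B'.μ B'.U = ∑ x : B.T × B'.T, μ2 x * ((B'.U x.2).card : ℝ) := by
      unfold ecard
      rw [Fintype.sum_prod_type_right]
      apply Finset.sum_congr rfl
      intro b _
      simp only [hμ2]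
      rw [← Finset.sum_mul, ← Finset.sum_mul, B.prob.sum_eq, one_mul]
    rw [h4, h5]
    unfold ecard
    rw [← Finset.sum_add_distrib, ← Finset.sum_sub_distrib]
    apply Finset.sum_congr rfl
    intro x _
    have h6 : (((B.U x.1 ∪ B'.U x.2).card : ℝ)) + ((B.U x.1 ∩ B'.U x.2).card : ℝ)
        = ((B.U x.1).card : ℝ) + ((B'.U x.2).card : ℝ) := by
      exact_mod_cast Finset.card_union_add_card_inter (B.U x.1) (B'.U x.2)
    linear_combination μ2 x * h6
  have hprodhl : hl μ2 = hl μ + hl B'.μ := hl_mul hμ.sum_eq B'.prob.sum_eq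
  have hF : B.F l Ψ = hl (symm G μ) - hl μ - l * ecard μ B.U + Ψ := rfl
  have hF' : B'.F l Ψ = hl (symm G B'.μ) - hl B'.μ - l * ecard B'.μ B'.U + Ψ := rfl
  have hF2 : (B.prod B').F l Ψ = hl P - hl μ2 - l * ecard μ2 (fun x => B.U x.1 ∪ B'.U x.2) + Ψ := rfl
  rw [hPlaw]
  change ent P (fun x : B.T × B'.T => (Kt x, x.1)) - ent P (fun x : B.T × B'.T => x.1) ≤
      (1 + n / (lam * rho)) * (B.F l Ψ + B'.F l Ψ - (B.prod B').F l Ψ
        + (ent P (fun x : B.T × B'.T => (Kt x, x.2)) - ent P (fun x : B.T × B'.T => x.2)))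
      + n / (lam * rho) * B.F l Ψ + Real.log rho * ∑ i, ecard P (K i)
  rw [f1, f2, f3]
  set hK2 : ℝ := ent P (fun x : B.T × B'.T => (Kt x, x.2)) - hl (symm G B'.μ) with hK2def
  set IQ : ℝ := hl μ + hl Qy - hl Q with hIQ
  set L : ℝ := Real.log rho * ∑ i, ecard P (K i) with hLdef
  -- κ bound
  have hκb : lam * κ ≤ B.F l Ψ + IQ := by
    rw [hF]
    linarith
  -- gain lower bound
  have hGlb : IQ ≤ B.F l Ψ + B'.F l Ψ - (B.prod B').F l Ψ + hK2 := by
    rw [hF, hF', hF2, hc, hprodhl]
    linarith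
  have hn : (0 : ℝ) ≤ (n : ℝ) / rho := div_nonneg (Nat.cast_nonneg _) hrho.le
  have hκb2 : (n : ℝ) / rho * κ ≤ n / (lam * rho) * (B.F l Ψ + IQ) := by
    have h1 : κ ≤ (B.F l Ψ + IQ) / lam := by
      rw [le_div_iff₀ hlam]; linarith
    calc (n : ℝ) / rho * κ ≤ n / rho * ((B.F l Ψ + IQ) / lam) :=
          mul_le_mul_of_nonneg_left h1 hn
      _ = n / (lam * rho) * (B.F l Ψ + IQ) := by
          field_simp
  have hε : (0 : ℝ) ≤ (n : ℝ) / (lam * rho) :=
    div_nonneg (Nat.cast_nonneg _) (mul_pos hlam hrho).le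
  have hfin : hl R - hl (symm G μ) ≤ (1 + n / (lam * rho)) * IQ + n / (lam * rho) * B.F l Ψ + L := by
    have : hl Q - hl μ ≤ IQ + L + (n : ℝ) / rho * κ := by
      rw [hIQ]; linarith
    rw [← hQent]
    linarith
  have := mul_le_mul_of_nonneg_left hGlb (by linarith : (0 : ℝ) ≤ 1 + n / (lam * rho))
  linarith

end

end Crest.Agent.R055
end

-- ▼ part R055/Push
section

/-!
Row 55 (S0076): push-forwards of weights, transport of entropies, n-block laws (helper212).
-/

set_option autoImplicit false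

namespace Crest.Agent.R055.Ch

open Finset Real
open scoped Pointwise
set_option linter.unusedSectionVars false

section push

variable {Ω Ω' : Type*} [Fintype Ω] [Fintype Ω']

open Classical in
/-- `P'` is the push-forward of `P` under `q`. -/
def IsPush (P : Ω → ℝ) (P' : Ω' → ℝ) (q : Ω → Ω') : Prop :=
  ∀ ω', P' ω' = ∑ ω, if q ω = ω' then P ω else 0

variable {P : Ω → ℝ} {P' : Ω' → ℝ} {q : Ω → Ω'}

theorem IsPush.sum_mul (h : IsPush P P' q) (f : Ω' → ℝ) :
    ∑ ω', P' ω' * f ω' = ∑ ω, P ω * f (q ω) := by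
  classical
  have : ∀ ω', P' ω' * f ω' = ∑ ω, (if q ω = ω' then P ω * f (q ω) else 0) := by
    intro ω'
    rw [h ω', Finset.sum_mul]
    apply Finset.sum_congr rfl
    intro ω _
    by_cases hh : q ω = ω'
    · simp [hh]
    · simp [hh]
  simp only [this]
  rw [Finset.sum_comm]
  apply Finset.sum_congr rfl
  intro ω _
  simp

theorem IsPush.cls {S : Type*} (h : IsPush P P' q) (X : Ω' → S) (ω : Ω) :
    cls P' X (q ω) = cls P (fun ω => X (q ω)) ω := by
  classical
  have h1 := h.sum_mul (fun ω' => if X ω' = X (q ω) then 1 else 0)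
  unfold R055.cls
  calc (∑ ω', if X ω' = X (q ω) then P' ω' else 0)
      = ∑ ω', P' ω' * (if X ω' = X (q ω) then 1 else 0) := by
        apply Finset.sum_congr rfl; intro ω' _; split_ifs <;> simp
    _ = ∑ ω₁, P ω₁ * (if X (q ω₁) = X (q ω) then 1 else 0) := h1
    _ = ∑ ω', if X (q ω') = X (q ω) then P ω' else 0 := by
        apply Finset.sum_congr rfl; intro ω' _; split_ifs <;> simp

theorem IsPush.ent {S : Type*} (h : IsPush P P' q) (X : Ω' → S) :
    ent P' X = ent P (fun ω => X (q ω)) := by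
  unfold R055.ent
  rw [h.sum_mul]
  apply Finset.sum_congr rfl
  intro ω _
  rw [h.cls]

theorem IsPush.ecard {E : Type} [Fintype E] [DecidableEq E] (h : IsPush P P' q)
    (U : Ω' → Finset E) : ecard P' U = ecard P (fun ω => U (q ω)) := by
  unfold R055.ecard
  exact h.sum_mul _

theorem IsPush.symm {G : Type*} [Group G] [Fintype G] [MulAction G Ω] [MulAction G Ω']
    (hq : ∀ (g : G) (ω : Ω), q (g • ω) = g • q ω) (h : IsPush P P' q) :
    IsPush (symm G P) (symm G P') q := by
  classical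
  intro ω'
  unfold R055.symm
  have h1 : ∀ g : G, P' (g⁻¹ • ω') = ∑ ω, if q ω = ω' then P (g⁻¹ • ω) else 0 := by
    intro g
    rw [h]
    refine Fintype.sum_equiv (MulAction.toPerm (g : G)) _ _ (fun ω => ?_)
    simp only [MulAction.toPerm_apply]
    rw [inv_smul_smul, hq]
    by_cases hh : q ω = g⁻¹ • ω'
    · rw [if_pos hh, if_pos (by rw [hh, smul_inv_smul])]
    · rw [if_neg hh, if_neg]
      intro h'
      exact hh (by rw [← h', inv_smul_smul])
  simp only [h1]
  rw [Finset.sum_comm, Finset.sum_div]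
  apply Finset.sum_congr rfl
  intro ω _
  split_ifs
  · rfl
  · simp

theorem IsPush.comp {Ω'' : Type*} [Fintype Ω''] {P'' : Ω'' → ℝ} {q' : Ω' → Ω''}
    (h : IsPush P P' q) (h' : IsPush P' P'' q') : IsPush P P'' (fun ω => q' (q ω)) := by
  classical
  intro ω''
  rw [h' ω'']
  have h1 := h.sum_mul (fun ω' => if q' ω' = ω'' then 1 else 0)
  calc (∑ ω', if q' ω' = ω'' then P' ω' else 0)
      = ∑ ω', P' ω' * (if q' ω' = ω'' then 1 else 0) := by
        apply Finset.sum_congr rfl; intro ω' _; split_ifs <;> simp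
    _ = ∑ ω₁, P ω₁ * (if q' (q ω₁) = ω'' then 1 else 0) := h1
    _ = ∑ ω', if q' (q ω') = ω'' then P ω' else 0 := by
        apply Finset.sum_congr rfl; intro ω' _; split_ifs <;> simp

theorem IsPush.of_equiv (e : Ω ≃ Ω') (h : ∀ ω, P' (e ω) = P ω) : IsPush P P' e := by
  classical
  intro ω'
  have : ∀ ω, (if e ω = ω' then P ω else 0) = if ω = e.symm ω' then P' ω' else 0 := by
    intro ω
    by_cases hh : e ω = ω'
    · rw [if_pos hh, if_pos (by rw [← hh, Equiv.symm_apply_apply]), ← hh, h]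
    · rw [if_neg hh, if_neg]
      intro h'
      exact hh (by rw [h', Equiv.apply_symm_apply])
  simp only [this]
  simp

end push

section nblock

variable {T : Type*} [Fintype T]

/-- product weight -/
def piW (μ : T → ℝ) (n : ℕ) : (Fin n → T) → ℝ := fun x => ∏ i, μ (x i)

theorem piW_isProb {μ : T → ℝ} (h : IsProb μ) (n : ℕ) : IsProb (piW μ n) := by
  classical
  constructor
  · intro x; exact Finset.prod_nonneg (fun i _ => h.nonneg _)
  · unfold piW
    have h1 := Finset.prod_univ_sum (fun _ : Fin n => (Finset.univ : Finset T)) (fun _ t => μ t)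
    rw [Fintype.piFinset_univ] at h1
    rw [← h1]
    simp [h.sum_eq]

/-- marginals of a product weight -/
theorem piW_push {μ : T → ℝ} (h : IsProb μ) {k n : ℕ} (σ : Fin k → Fin n)
    (hσ : Function.Injective σ) : IsPush (piW μ n) (piW μ k) (fun x => x ∘ σ) := by
  classical
  intro y
  have h1 : ∀ x : Fin n → T, (if x ∘ σ = y then piW μ n x else 0)
      = ∏ i, (if ∀ j, σ j = i → x i = y j then μ (x i) else 0) := by
    intro x
    by_cases hx : x ∘ σ = y
    · rw [if_pos hx]
      unfold piW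
      apply Finset.prod_congr rfl
      intro i _
      rw [if_pos]
      intro j hj
      rw [← hx, ← hj]; rfl
    · rw [if_neg hx]
      have : ∃ j, x (σ j) ≠ y j := by
        by_contra hcon
        push Not at hcon
        exact hx (funext hcon)
      obtain ⟨j, hj⟩ := this
      symm
      apply Finset.prod_eq_zero (Finset.mem_univ (σ j))
      rw [if_neg]
      intro hcon
      exact hj (hcon j rfl)
  have h2 : ∑ x : Fin n → T, ∏ i, (if ∀ j, σ j = i → x i = y j then μ (x i) else 0)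
      = ∏ i, ∑ t : T, (if ∀ j, σ j = i → t = y j then μ t else 0) := by
    rw [Finset.prod_univ_sum]
    simp
  have h7 : (∑ x : Fin n → T, @ite ℝ ((fun x : Fin n → T => x ∘ σ) x = y)
      (Classical.propDecidable _) (piW μ n x) 0)
      = ∑ x : Fin n → T, ∏ i, (if ∀ j, σ j = i → x i = y j then μ (x i) else 0) := by
    apply Finset.sum_congr rfl
    intro x _
    rw [← h1 x]
    by_cases hx : x ∘ σ = y
    · rw [if_pos hx, if_pos hx]
    · rw [if_neg hx, if_neg hx]
  rw [h7, h2]
  have h3 : ∀ i, (∑ t : T, if ∀ j, σ j = i → t = y j then μ t else 0)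
      = ∏ j, (if σ j = i then μ (y j) else 1) := by
    intro i
    by_cases hi : ∃ j, σ j = i
    · obtain ⟨j, rfl⟩ := hi
      have h4 : ∀ t, (∀ j', σ j' = σ j → t = y j') ↔ t = y j := by
        intro t
        constructor
        · intro hh; exact hh j rfl
        · rintro rfl j' hj'
          rw [hσ hj']
      simp only [h4]
      rw [Finset.sum_ite_eq' Finset.univ (y j) μ, if_pos (Finset.mem_univ _)]
      symm
      rw [Finset.prod_eq_single j]
      · rw [if_pos rfl]
      · intro j' _ hj'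
        rw [if_neg]
        intro hcon
        exact hj' (hσ hcon)
      · intro hcon; exact absurd (Finset.mem_univ _) hcon
    · have h5 : ∀ t, (∀ j, σ j = i → t = y j) := fun t j hj => absurd ⟨j, hj⟩ hi
      have h8 : ∀ t, (if ∀ j, σ j = i → t = y j then μ t else 0) = μ t :=
        fun t => if_pos (h5 t)
      have h6 : ∀ j, (if σ j = i then μ (y j) else 1) = 1 := fun j => if_neg (fun hj => hi ⟨j, hj⟩)
      rw [Finset.sum_congr rfl (fun t _ => h8 t), Finset.prod_congr rfl (fun j _ => h6 j),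
        h.sum_eq, Finset.prod_const_one]
  simp only [h3]
  rw [Finset.prod_comm]
  unfold piW
  apply Finset.prod_congr rfl
  intro j _
  simp

end nblock

end Crest.Agent.R055.Ch
end

-- ▼ part R055/Chain
section

/-!
Row 55 (S0076): the 4-block Shannon inequalities (`ChainStmt` from `GainStmt`) (helper212).
-/

set_option autoImplicit false

namespace Crest.Agent.R055.Ch

open Finset Real
open scoped Pointwise
set_option linter.unusedSectionVars false

/-! ### conditional entropy -/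

section cent
variable {Ω : Type*} [Fintype Ω] {P : Ω → ℝ} {S S' S'' S''' : Type*}

/-- conditional entropy `H(X | Y)` -/
noncomputable def cent (P : Ω → ℝ) (X : Ω → S) (Y : Ω → S') : ℝ :=
  ent P (fun ω => (X ω, Y ω)) - ent P Y

theorem cent_congr {X : Ω → S} {Y : Ω → S'} {X' : Ω → S''} {Y' : Ω → S'''}
    (hY : ∀ ω ω', Y ω' = Y ω ↔ Y' ω' = Y' ω)
    (hX : ∀ ω ω', Y ω' = Y ω → (X ω' = X ω ↔ X' ω' = X' ω)) :
    cent P X Y = cent P X' Y' := by
  unfold cent
  rw [ent_congr hY]
  congr 1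
  apply ent_congr
  intro ω ω'
  simp only [Prod.mk.injEq]
  constructor
  · rintro ⟨h1, h2⟩
    exact ⟨(hX ω ω' h2).mp h1, (hY ω ω').mp h2⟩
  · rintro ⟨h1, h2⟩
    have h3 := (hY ω ω').mpr h2
    exact ⟨(hX ω ω' h3).mpr h1, h3⟩

/-- conditioning on more reduces entropy -/
theorem cent_anti (hP : IsProb P) (X : Ω → S) {Y : Ω → S'} {Z : Ω → S''}
    (h : ∀ ω ω', Y ω' = Y ω → Z ω' = Z ω) : cent P X Y ≤ cent P X Z := by
  have h1 := ent_submod hP X Y Z
  have h2 : ent P (fun ω => (X ω, Y ω, Z ω)) = ent P (fun ω => (X ω, Y ω)) := by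
    apply ent_congr
    intro ω ω'
    simp only [Prod.mk.injEq]
    constructor
    · rintro ⟨a, b, _⟩; exact ⟨a, b⟩
    · rintro ⟨a, b⟩; exact ⟨a, b, h _ _ b⟩
  have h3 : ent P (fun ω => (Y ω, Z ω)) = ent P Y := by
    apply ent_congr
    intro ω ω'
    simp only [Prod.mk.injEq]
    constructor
    · rintro ⟨a, _⟩; exact a
    · intro a; exact ⟨a, h _ _ a⟩
  unfold cent
  rw [h2, h3] at h1
  linarith

/-- monotonicity in the first variable -/
theorem cent_mono (hP : IsProb P) {X : Ω → S} {X' : Ω → S''} (Y : Ω → S')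
    (h : ∀ ω ω', Y ω' = Y ω → X' ω' = X' ω → X ω' = X ω) : cent P X Y ≤ cent P X' Y := by
  unfold cent
  have : ent P (fun ω => (X ω, Y ω)) ≤ ent P (fun ω => (X' ω, Y ω)) := by
    apply ent_mono hP.nonneg
    intro ω ω' hh
    simp only [Prod.mk.injEq] at hh ⊢
    exact ⟨h _ _ hh.2 hh.1, hh.2⟩
  linarith

/-- chain rule -/
theorem cent_chain (X : Ω → S) (X' : Ω → S'') (Y : Ω → S') :
    cent P (fun ω => (X ω, X' ω)) Y = cent P X Y + cent P X' (fun ω => (X ω, Y ω)) := by
  unfold cent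
  have : ent P (fun ω => ((X ω, X' ω), Y ω)) = ent P (fun ω => (X' ω, X ω, Y ω)) := by
    apply ent_congr
    intro ω ω'
    simp only [Prod.mk.injEq]
    tauto
  rw [this]
  ring

theorem cent_subadd (hP : IsProb P) (X : Ω → S) (X' : Ω → S'') (Y : Ω → S') :
    cent P (fun ω => (X ω, X' ω)) Y ≤ cent P X Y + cent P X' Y := by
  rw [cent_chain]
  have := cent_anti hP X' (Y := fun ω => (X ω, Y ω)) (Z := Y)
    (by intro ω ω' h; simp only [Prod.mk.injEq] at h; exact h.2)
  linarith

/-- **marking bound**: a subset of a known finite set `W` costs at most `log 2` per element. -/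
theorem cent_mark (hP : IsProb P) {E : Type*} [Fintype E] [DecidableEq E]
    (X : Ω → S) (W A : Ω → Finset E)
    (hW : ∀ ω ω', X ω' = X ω → W ω' = W ω) (hA : ∀ ω, A ω ⊆ W ω) :
    cent P A X ≤ Real.log 2 * ∑ ω, P ω * ((W ω).card : ℝ) := by
  classical
  have h0 := hP.nonneg
  set AX : Ω → Finset E × S := fun ω => (A ω, X ω) with hAX
  set r : Ω → ℝ := fun ω => cls P X ω / (cls P AX ω * 2 ^ (W ω).card) with hr
  have hrpos : ∀ ω, 0 < P ω → 0 < r ω := by
    intro ω hω
    have h1 := cls_pos h0 X hω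
    have h3 := cls_pos h0 AX hω
    simp only [hr]
    positivity
  have key : ∑ ω, P ω * r ω ≤ 1 := by
    have e1 : ∀ ω, P ω * r ω = ∑ ω', P ω' / 2 ^ (W ω').card *
        ∑ T ∈ (W ω').powerset, (if AX ω = (T, X ω') then P ω / cls P AX ω else 0) := by
      intro ω
      have hh : ∀ ω', (P ω' / 2 ^ (W ω').card *
        ∑ T ∈ (W ω').powerset, (if AX ω = (T, X ω') then P ω / cls P AX ω else 0))
          = (if X ω' = X ω then P ω' else 0) * (P ω / (cls P AX ω * 2 ^ (W ω).card)) := by
        intro ω'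
        by_cases hx : X ω' = X ω
        · rw [if_pos hx]
          have hW' : W ω' = W ω := hW _ _ hx
          have h5 : (∑ T ∈ (W ω').powerset, (if AX ω = (T, X ω') then P ω / cls P AX ω else 0))
              = P ω / cls P AX ω := by
            rw [Finset.sum_eq_single (A ω)]
            · rw [if_pos (by simp [hAX, hx])]
            · intro T _ hT
              rw [if_neg]
              intro hcon
              simp only [hAX, Prod.mk.injEq] at hcon
              exact hT hcon.1.symm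
            · intro hcon
              exact absurd (Finset.mem_powerset.mpr (hW' ▸ hA ω)) hcon
          rw [h5, hW']
          ring
        · rw [if_neg hx]
          have h5 : (∑ T ∈ (W ω').powerset, (if AX ω = (T, X ω') then P ω / cls P AX ω else 0))
              = 0 := by
            apply Finset.sum_eq_zero
            intro T _
            rw [if_neg]
            intro hcon
            simp only [hAX, Prod.mk.injEq] at hcon
            exact hx hcon.2.symm
          rw [h5]; ring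
      simp only [hh]
      rw [← Finset.sum_mul]
      have h6 : (∑ ω', if X ω' = X ω then P ω' else 0) = cls P X ω := by
        unfold cls; apply Finset.sum_congr rfl; intro i _; congr
      rw [h6]
      simp only [hr]
      ring
    simp only [e1]
    rw [Finset.sum_comm]
    have e2 : ∀ ω', ∑ ω, P ω' / 2 ^ (W ω').card *
        ∑ T ∈ (W ω').powerset, (if AX ω = (T, X ω') then P ω / cls P AX ω else 0) ≤ P ω' := by
      intro ω'
      rw [← Finset.mul_sum, Finset.sum_comm]
      have e3 : ∑ T ∈ (W ω').powerset, ∑ ω, (if AX ω = (T, X ω') then P ω / cls P AX ω else 0)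
          ≤ 2 ^ (W ω').card := by
        calc _ ≤ ∑ T ∈ (W ω').powerset, (1 : ℝ) :=
              Finset.sum_le_sum (fun T _ => sum_div_cls_le P AX (T, X ω'))
          _ = 2 ^ (W ω').card := by simp [Finset.card_powerset]
      have h7 : (0 : ℝ) < 2 ^ (W ω').card := by positivity
      calc _ ≤ P ω' / 2 ^ (W ω').card * 2 ^ (W ω').card :=
            mul_le_mul_of_nonneg_left e3 (div_nonneg (h0 _) h7.le)
        _ = P ω' := by field_simp
    calc _ ≤ ∑ ω', P ω' := Finset.sum_le_sum (fun ω' _ => e2 ω')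
      _ = 1 := hP.sum_eq
  have h5 := sum_mul_log_le (w := P) (r := r) h0 hrpos
  rw [hP.sum_eq] at h5
  have h6 : ∑ ω, P ω * Real.log (r ω)
      = cent P A X - Real.log 2 * ∑ ω, P ω * ((W ω).card : ℝ) := by
    unfold cent ent
    rw [Finset.mul_sum, ← Finset.sum_sub_distrib, ← Finset.sum_sub_distrib]
    apply Finset.sum_congr rfl
    intro ω _
    rcases (h0 ω).lt_or_eq with hi | hi
    · have h1 := cls_pos h0 X hi
      have h3 := cls_pos h0 AX hi
      simp only [hr]
      rw [Real.log_div (by positivity) (by positivity), Real.log_mul h3.ne' (by positivity),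
        Real.log_pow]
      ring
    · simp [← hi]
  linarith

end cent

/-! ### the n-block law -/

section blocks

variable {G E : Type} [Group G] [Fintype G] [Fintype E] [DecidableEq E] [MulAction G E]
  {H : Finset E}

/-- law of `n` independent copies of the block `B`, symmetrised. -/
noncomputable def pw (B : Blk G H) (n : ℕ) : (Fin n → B.T) → ℝ := symm G (piW B.μ n)

theorem pw_isProb (B : Blk G H) (n : ℕ) : IsProb (pw B n) :=
  symm_isProb (piW_isProb B.prob n)

theorem pw_push (B : Blk G H) {k n : ℕ} (σ : Fin k → Fin n) (hσ : Function.Injective σ) :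
    IsPush (pw B n) (pw B k) (fun x => x ∘ σ) :=
  IsPush.symm (fun _ _ => rfl) (piW_push B.prob σ hσ)

/-- reassociation equivalences -/
def e2 (T : Type) : (Fin 2 → T) ≃ T × T where
  toFun x := (x 0, x 1)
  invFun p := ![p.1, p.2]
  left_inv x := by funext i; fin_cases i <;> rfl
  right_inv _ := rfl

def e3 (T : Type) : (Fin 3 → T) ≃ T × (T × T) where
  toFun x := (x 0, (x 1, x 2))
  invFun p := ![p.1, p.2.1, p.2.2]
  left_inv x := by funext i; fin_cases i <;> rfl
  right_inv _ := rfl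

def e4 (T : Type) : (Fin 4 → T) ≃ T × (T × (T × T)) where
  toFun x := (x 0, (x 1, (x 2, x 3)))
  invFun p := ![p.1, p.2.1, p.2.2.1, p.2.2.2]
  left_inv x := by funext i; fin_cases i <;> rfl
  right_inv _ := rfl

def e22 (T : Type) : (Fin 4 → T) ≃ (T × T) × (T × T) where
  toFun x := ((x 0, x 1), (x 2, x 3))
  invFun p := ![p.1.1, p.1.2, p.2.1, p.2.2]
  left_inv x := by funext i; fin_cases i <;> rfl
  right_inv _ := rfl

theorem push_e2 (B : Blk G H) : IsPush (pw B 2) (B.prod B).law (e2 B.T) := by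
  apply IsPush.symm (fun _ _ => rfl)
  apply IsPush.of_equiv
  intro x
  change B.μ (x 0) * B.μ (x 1) = ∏ i, B.μ (x i)
  rw [Fin.prod_univ_two]

theorem push_e3 (B : Blk G H) : IsPush (pw B 3) (B.prod (B.prod B)).law (e3 B.T) := by
  apply IsPush.symm (fun _ _ => rfl)
  apply IsPush.of_equiv
  intro x
  change B.μ (x 0) * (B.μ (x 1) * B.μ (x 2)) = ∏ i, B.μ (x i)
  rw [Fin.prod_univ_three]; ring

theorem push_e4 (B : Blk G H) :
    IsPush (pw B 4) (B.prod (B.prod (B.prod B))).law (e4 B.T) := by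
  apply IsPush.symm (fun _ _ => rfl)
  apply IsPush.of_equiv
  intro x
  change B.μ (x 0) * (B.μ (x 1) * (B.μ (x 2) * B.μ (x 3))) = ∏ i, B.μ (x i)
  rw [Fin.prod_univ_four]; ring

theorem push_e22 (B : Blk G H) :
    IsPush (pw B 4) ((B.prod B).prod (B.prod B)).law (e22 B.T) := by
  apply IsPush.symm (fun _ _ => rfl)
  apply IsPush.of_equiv
  intro x
  change (B.μ (x 0) * B.μ (x 1)) * (B.μ (x 2) * B.μ (x 3)) = ∏ i, B.μ (x i)
  rw [Fin.prod_univ_four]; ring

/-- `F` is invariant under equivariant equivalences. -/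
theorem F_congr (B B' : Blk G H) (e : B.T ≃ B'.T) (he : ∀ (g : G) (t : B.T), e (g • t) = g • e t)
    (hμ : ∀ t, B'.μ (e t) = B.μ t) (hU : ∀ t, B'.U (e t) = B.U t) (l Ψ : ℝ) :
    B.F l Ψ = B'.F l Ψ := by
  have h1 : hl B.μ = hl B'.μ := by
    unfold hl
    exact Fintype.sum_equiv e _ _ (fun t => by rw [hμ])
  have h2 : ∀ t, symm G B'.μ (e t) = symm G B.μ t := by
    intro t
    unfold symm
    congr 1
    apply Finset.sum_congr rfl
    intro g _
    rw [← he, hμ]
  have h3 : hl (symm G B.μ) = hl (symm G B'.μ) := by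
    unfold hl
    exact Fintype.sum_equiv e _ _ (fun t => by rw [h2])
  have h4 : ecard B.μ B.U = ecard B'.μ B'.U := by
    unfold ecard
    exact Fintype.sum_equiv e _ _ (fun t => by rw [hμ, hU])
  unfold Blk.F Dv
  rw [h1, h3, h4]

theorem F_four (B : Blk G H) (l Ψ : ℝ) :
    (B.prod (B.prod (B.prod B))).F l Ψ = ((B.prod B).prod (B.prod B)).F l Ψ := by
  apply F_congr _ _ ((Equiv.prodAssoc B.T B.T (B.T × B.T)).symm)
  · intro g t; rfl
  · intro t
    change (B.μ t.1 * B.μ t.2.1) * (B.μ t.2.2.1 * B.μ t.2.2.2)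
      = B.μ t.1 * (B.μ t.2.1 * (B.μ t.2.2.1 * B.μ t.2.2.2))
    ring
  · intro t
    change (B.U t.1 ∪ B.U t.2.1) ∪ (B.U t.2.2.1 ∪ B.U t.2.2.2)
      = B.U t.1 ∪ (B.U t.2.1 ∪ (B.U t.2.2.1 ∪ B.U t.2.2.2))
    rw [Finset.union_assoc]

/-- overlap -/
def KK (B : Blk G H) {n : ℕ} (i j : Fin n) (x : Fin n → B.T) : Finset E := B.U (x i) ∩ B.U (x j)

/-- `c1 = H(K01 | β0)` -/
noncomputable def c1 (B : Blk G H) : ℝ := cent (pw B 2) (KK B 0 1) (fun x => x 0)
/-- `c2 = H(K01 | β0 β2)` -/
noncomputable def c2 (B : Blk G H) : ℝ := cent (pw B 3) (KK B 0 1) (fun x => (x 0, x 2))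
/-- `c3 = H(K01 | β0 β2 β3)` -/
noncomputable def c3 (B : Blk G H) : ℝ := cent (pw B 4) (KK B 0 1) (fun x => (x 0, x 2, x 3))

theorem cent_push {Ω Ω' : Type*} [Fintype Ω] [Fintype Ω'] {P : Ω → ℝ} {P' : Ω' → ℝ} {q : Ω → Ω'}
    (h : IsPush P P' q) {S S' : Type*} (X : Ω' → S) (Y : Ω' → S') :
    cent P' X Y = cent P (fun ω => X (q ω)) (fun ω => Y (q ω)) := by
  unfold cent
  rw [h.ent, h.ent]

theorem c1_eq (B : Blk G H) (i j : Fin 4) (h : Function.Injective ![i, j]) :
    cent (pw B 4) (KK B i j) (fun x => x i) = c1 B := by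
  unfold c1
  rw [cent_push (pw_push B ![i, j] h)]
  rfl

theorem c2_eq (B : Blk G H) (i j k : Fin 4) (h : Function.Injective ![i, j, k]) :
    cent (pw B 4) (KK B i j) (fun x => (x i, x k)) = c2 B := by
  unfold c2
  rw [cent_push (pw_push B ![i, j, k] h)]
  rfl

theorem c3_eq (B : Blk G H) (i j k l : Fin 4) (h : Function.Injective ![i, j, k, l]) :
    cent (pw B 4) (KK B i j) (fun x => (x i, x k, x l)) = c3 B := by
  exact (cent_push (pw_push B ![i, j, k, l] h) (KK B 0 1) (fun x => (x 0, x 2, x 3))).symm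

theorem m_eq (B : Blk G H) : B.m = c1 B := by
  exact cent_push (push_e2 B) (fun x : B.T × B.T => B.U x.1 ∩ B.U x.2)
    (fun x : B.T × B.T => x.1)

theorem k_eq (B : Blk G H) (i j : Fin 4) (h : Function.Injective ![i, j]) :
    B.k = ecard (pw B 4) (KK B i j) := by
  exact ((push_e2 B).ecard (fun x : B.T × B.T => B.U x.1 ∩ B.U x.2)).trans
    ((pw_push B ![i, j] h).ecard (KK B 0 1))

theorem q2 (B : Blk G H) (i j : Fin 4) (h : Function.Injective ![i, j]) :
    IsPush (pw B 4) (B.prod B).law (fun x => ((x i, x j) : B.T × B.T)) :=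
  (pw_push B ![i, j] h).comp (push_e2 B)

theorem q3 (B : Blk G H) (i j k : Fin 4) (h : Function.Injective ![i, j, k]) :
    IsPush (pw B 4) (B.prod (B.prod B)).law (fun x => ((x i, (x j, x k)) : B.T × (B.T × B.T))) :=
  (pw_push B ![i, j, k] h).comp (push_e3 B)

theorem q4 (B : Blk G H) (i j k l : Fin 4) (h : Function.Injective ![i, j, k, l]) :
    IsPush (pw B 4) (B.prod (B.prod (B.prod B))).law
      (fun x => ((x i, (x j, (x k, x l))) : B.T × (B.T × (B.T × B.T)))) :=
  (pw_push B ![i, j, k, l] h).comp (push_e4 B)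

theorem gain1 {l lam rho Ψ : ℝ} (hg : GainStmt G H l lam rho Ψ) (B : Blk G H) :
    c1 B ≤ (1 + 1 / (lam * rho)) * ((2 * B.F l Ψ - (B.prod B).F l Ψ) + c1 B)
      + 1 / (lam * rho) * B.F l Ψ + B.k * Real.log rho := by
  have h := hg B B 1 (fun _ x => B.U x.1 ∩ B.U x.2)
    (fun _ x => Finset.inter_subset_left)
    (fun _ g x => by
      change B.U (g • x.1) ∩ B.U (g • x.2) = _
      rw [B.equi, B.equi, Finset.smul_finset_inter])
    (fun x => by ext e; simp)
  have e1 : cent (B.prod B).law (fun (x : B.T × B.T) (_ : Fin 1) => B.U x.1 ∩ B.U x.2)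
      (fun x : B.T × B.T => x.1) = c1 B := by
    refine (cent_push (q2 B 0 1 (by decide)) _ _).trans ?_
    rw [← c1_eq B 0 1 (by decide)]
    exact cent_congr (fun _ _ => Iff.rfl)
      (fun ω ω' _ => ⟨fun h => congrFun h 0, fun h => funext fun _ => h⟩)
  have e2 : cent (B.prod B).law (fun (x : B.T × B.T) (_ : Fin 1) => B.U x.1 ∩ B.U x.2)
      (fun x : B.T × B.T => x.2) = c1 B := by
    refine (cent_push (q2 B 0 1 (by decide)) _ _).trans ?_
    rw [← c1_eq B 1 0 (by decide)]
    refine cent_congr (fun _ _ => Iff.rfl)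
      (fun ω ω' _ => ⟨fun h => ?_, fun h => funext fun _ => ?_⟩)
    · have := congrFun h 0
      unfold KK
      rw [Finset.inter_comm, this, Finset.inter_comm]
    · unfold KK at h
      change B.U (ω' 0) ∩ B.U (ω' 1) = B.U (ω 0) ∩ B.U (ω 1)
      rw [Finset.inter_comm, h, Finset.inter_comm]
  have h' : cent (B.prod B).law (fun (x : B.T × B.T) (_ : Fin 1) => B.U x.1 ∩ B.U x.2)
      (fun x : B.T × B.T => x.1) ≤ (1 + ((1 : ℕ) : ℝ) / (lam * rho)) *
        (B.F l Ψ + B.F l Ψ - (B.prod B).F l Ψ +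
        cent (B.prod B).law (fun (x : B.T × B.T) (_ : Fin 1) => B.U x.1 ∩ B.U x.2)
          (fun x : B.T × B.T => x.2)) + ((1 : ℕ) : ℝ) / (lam * rho) * B.F l Ψ
        + Real.log rho * ∑ _i : Fin 1, B.k := h
  rw [e1, e2] at h'
  simp only [Nat.cast_one, Finset.univ_unique, Finset.sum_const, Finset.card_singleton,
    one_smul] at h'
  calc c1 B ≤ _ := h'
    _ = _ := by ring

theorem gain2 {l lam rho Ψ : ℝ} (hg : GainStmt G H l lam rho Ψ) (B : Blk G H) :
    cent (pw B 4) (fun x => (KK B 2 0 x, KK B 2 1 x)) (fun x => x 2)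
      ≤ (1 + 2 / (lam * rho)) * ((B.F l Ψ + (B.prod B).F l Ψ - (B.prod (B.prod B)).F l Ψ)
        + cent (pw B 4) (fun x => (KK B 2 0 x, KK B 2 1 x)) (fun x => (x 0, x 1)))
      + 2 / (lam * rho) * B.F l Ψ + 2 * B.k * Real.log rho := by
  set K : Fin 2 → B.T × (B.T × B.T) → Finset E :=
    fun i x => (![B.U x.1 ∩ B.U x.2.1, B.U x.1 ∩ B.U x.2.2] : Fin 2 → Finset E) i with hK
  have h := hg B (B.prod B) 2 K
    (fun i x => by
      fin_cases i
      · exact Finset.inter_subset_left
      · exact Finset.inter_subset_left)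
    (fun i g x => by
      fin_cases i
      · change B.U (g • x.1) ∩ B.U (g • x.2.1) = g • (B.U x.1 ∩ B.U x.2.1)
        rw [B.equi, B.equi, Finset.smul_finset_inter]
      · change B.U (g • x.1) ∩ B.U (g • x.2.2) = g • (B.U x.1 ∩ B.U x.2.2)
        rw [B.equi, B.equi, Finset.smul_finset_inter])
    (fun x => by
      change _ = B.U x.1 ∩ (B.U x.2.1 ∪ B.U x.2.2)
      ext e
      simp only [Finset.mem_biUnion, Finset.mem_univ, true_and, Fin.exists_fin_two, hK,
        Finset.mem_inter, Finset.mem_union, Matrix.cons_val_zero, Matrix.cons_val_one]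
      tauto)
  have hcg : ∀ {S : Type} (Y : (Fin 4 → B.T) → S),
      cent (pw B 4) (fun x i => K i (x 2, (x 0, x 1))) Y
        = cent (pw B 4) (fun x => (KK B 2 0 x, KK B 2 1 x)) Y := by
    intro S Y
    refine cent_congr (fun _ _ => Iff.rfl) (fun ω ω' _ => ?_)
    constructor
    · intro hh
      exact Prod.ext (congrFun hh 0) (congrFun hh 1)
    · intro hh
      simp only [Prod.mk.injEq] at hh
      funext i
      fin_cases i
      · exact hh.1
      · exact hh.2
  have e1 : cent (B.prod (B.prod B)).law (fun (x : B.T × (B.T × B.T)) (i : Fin 2) => K i x)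
      (fun x : B.T × (B.T × B.T) => x.1)
      = cent (pw B 4) (fun x => (KK B 2 0 x, KK B 2 1 x)) (fun x => x 2) :=
    (cent_push (q3 B 2 0 1 (by decide)) _ _).trans (hcg _)
  have e2 : cent (B.prod (B.prod B)).law (fun (x : B.T × (B.T × B.T)) (i : Fin 2) => K i x)
      (fun x : B.T × (B.T × B.T) => x.2)
      = cent (pw B 4) (fun x => (KK B 2 0 x, KK B 2 1 x)) (fun x => (x 0, x 1)) :=
    (cent_push (q3 B 2 0 1 (by decide)) _ _).trans (hcg _)
  have e3 : ∑ i : Fin 2, ecard (B.prod (B.prod B)).law (K i) = 2 * B.k := by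
    rw [Fin.sum_univ_two]
    have a1 : ecard (B.prod (B.prod B)).law (K 0) = B.k :=
      ((q3 B 2 0 1 (by decide)).ecard _).trans (k_eq B 2 0 (by decide)).symm
    have a2 : ecard (B.prod (B.prod B)).law (K 1) = B.k :=
      ((q3 B 2 0 1 (by decide)).ecard _).trans (k_eq B 2 1 (by decide)).symm
    rw [a1, a2]; ring
  have h' : cent (B.prod (B.prod B)).law (fun (x : B.T × (B.T × B.T)) (i : Fin 2) => K i x)
      (fun x : B.T × (B.T × B.T) => x.1) ≤ (1 + ((2 : ℕ) : ℝ) / (lam * rho)) *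
        (B.F l Ψ + (B.prod B).F l Ψ - (B.prod (B.prod B)).F l Ψ +
        cent (B.prod (B.prod B)).law (fun (x : B.T × (B.T × B.T)) (i : Fin 2) => K i x)
          (fun x : B.T × (B.T × B.T) => x.2)) + ((2 : ℕ) : ℝ) / (lam * rho) * B.F l Ψ
        + Real.log rho * ∑ i : Fin 2, ecard (B.prod (B.prod B)).law (K i) := h
  rw [e1, e2, e3] at h'
  simp only [Nat.cast_ofNat] at h'
  linarith

theorem gain3 {l lam rho Ψ : ℝ} (hg : GainStmt G H l lam rho Ψ) (B : Blk G H) :
    cent (pw B 4) (fun x => (KK B 3 0 x, KK B 3 1 x, KK B 3 2 x)) (fun x => x 3)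
      ≤ (1 + 3 / (lam * rho)) * ((B.F l Ψ + (B.prod (B.prod B)).F l Ψ
          - ((B.prod B).prod (B.prod B)).F l Ψ)
        + cent (pw B 4) (fun x => (KK B 3 0 x, KK B 3 1 x, KK B 3 2 x)) (fun x => (x 0, x 1, x 2)))
      + 3 / (lam * rho) * B.F l Ψ + 3 * B.k * Real.log rho := by
  set K : Fin 3 → B.T × (B.T × (B.T × B.T)) → Finset E :=
    fun i x => (![B.U x.1 ∩ B.U x.2.1, B.U x.1 ∩ B.U x.2.2.1, B.U x.1 ∩ B.U x.2.2.2]
      : Fin 3 → Finset E) i with hK
  have h := hg B (B.prod (B.prod B)) 3 K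
    (fun i x => by
      fin_cases i
      · exact Finset.inter_subset_left
      · exact Finset.inter_subset_left
      · exact Finset.inter_subset_left)
    (fun i g x => by
      fin_cases i
      · change B.U (g • x.1) ∩ B.U (g • x.2.1) = g • (B.U x.1 ∩ B.U x.2.1)
        rw [B.equi, B.equi, Finset.smul_finset_inter]
      · change B.U (g • x.1) ∩ B.U (g • x.2.2.1) = g • (B.U x.1 ∩ B.U x.2.2.1)
        rw [B.equi, B.equi, Finset.smul_finset_inter]
      · change B.U (g • x.1) ∩ B.U (g • x.2.2.2) = g • (B.U x.1 ∩ B.U x.2.2.2)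
        rw [B.equi, B.equi, Finset.smul_finset_inter])
    (fun x => by
      change _ = B.U x.1 ∩ (B.U x.2.1 ∪ (B.U x.2.2.1 ∪ B.U x.2.2.2))
      ext e
      simp only [Finset.mem_biUnion, Finset.mem_univ, true_and, Fin.exists_fin_succ, hK,
        Finset.mem_inter, Finset.mem_union, Matrix.cons_val_zero, Matrix.cons_val_succ,
        IsEmpty.exists_iff, or_false]
      tauto)
  have hcg : ∀ {S : Type} (Y : (Fin 4 → B.T) → S),
      cent (pw B 4) (fun x i => K i (x 3, (x 0, (x 1, x 2)))) Y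
        = cent (pw B 4) (fun x => (KK B 3 0 x, KK B 3 1 x, KK B 3 2 x)) Y := by
    intro S Y
    refine cent_congr (fun _ _ => Iff.rfl) (fun ω ω' _ => ?_)
    constructor
    · intro hh
      exact Prod.ext (congrFun hh 0) (Prod.ext (congrFun hh 1) (congrFun hh 2))
    · intro hh
      simp only [Prod.mk.injEq] at hh
      funext i
      fin_cases i
      · exact hh.1
      · exact hh.2.1
      · exact hh.2.2
  have e1 : cent (B.prod (B.prod (B.prod B))).law
      (fun (x : B.T × (B.T × (B.T × B.T))) (i : Fin 3) => K i x)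
      (fun x : B.T × (B.T × (B.T × B.T)) => x.1)
      = cent (pw B 4) (fun x => (KK B 3 0 x, KK B 3 1 x, KK B 3 2 x)) (fun x => x 3) :=
    (cent_push (q4 B 3 0 1 2 (by decide)) _ _).trans (hcg _)
  have e2 : cent (B.prod (B.prod (B.prod B))).law
      (fun (x : B.T × (B.T × (B.T × B.T))) (i : Fin 3) => K i x)
      (fun x : B.T × (B.T × (B.T × B.T)) => x.2)
      = cent (pw B 4) (fun x => (KK B 3 0 x, KK B 3 1 x, KK B 3 2 x)) (fun x => (x 0, x 1, x 2)) :=
    (cent_push (q4 B 3 0 1 2 (by decide)) _ _).trans (hcg _)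
  have e3 : ∑ i : Fin 3, ecard (B.prod (B.prod (B.prod B))).law (K i) = 3 * B.k := by
    rw [Fin.sum_univ_three]
    have a1 : ecard (B.prod (B.prod (B.prod B))).law (K 0) = B.k :=
      ((q4 B 3 0 1 2 (by decide)).ecard _).trans (k_eq B 3 0 (by decide)).symm
    have a2 : ecard (B.prod (B.prod (B.prod B))).law (K 1) = B.k :=
      ((q4 B 3 0 1 2 (by decide)).ecard _).trans (k_eq B 3 1 (by decide)).symm
    have a3 : ecard (B.prod (B.prod (B.prod B))).law (K 2) = B.k :=
      ((q4 B 3 0 1 2 (by decide)).ecard _).trans (k_eq B 3 2 (by decide)).symm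
    rw [a1, a2, a3]; ring
  have h' : cent (B.prod (B.prod (B.prod B))).law
      (fun (x : B.T × (B.T × (B.T × B.T))) (i : Fin 3) => K i x)
      (fun x : B.T × (B.T × (B.T × B.T)) => x.1) ≤ (1 + ((3 : ℕ) : ℝ) / (lam * rho)) *
        (B.F l Ψ + (B.prod (B.prod B)).F l Ψ - (B.prod (B.prod (B.prod B))).F l Ψ +
        cent (B.prod (B.prod (B.prod B))).law
          (fun (x : B.T × (B.T × (B.T × B.T))) (i : Fin 3) => K i x)
          (fun x : B.T × (B.T × (B.T × B.T)) => x.2)) + ((3 : ℕ) : ℝ) / (lam * rho) * B.F l Ψ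
        + Real.log rho * ∑ i : Fin 3, ecard (B.prod (B.prod (B.prod B))).law (K i) := h
  rw [e1, e2, e3, F_four] at h'
  simp only [Nat.cast_ofNat] at h'
  linarith

theorem KK_comm (B : Blk G H) {n : ℕ} (i j : Fin n) (x : Fin n → B.T) :
    KK B i j x = KK B j i x := Finset.inter_comm _ _

theorem KK_congr (B : Blk G H) {n : ℕ} (i j : Fin n) {x y : Fin n → B.T} (h1 : y i = x i)
    (h2 : y j = x j) : KK B i j y = KK B i j x := by
  unfold KK; rw [h1, h2]

/-- the big overlap of blocks `(0,1)` and `(2,3)` -/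
def KB (B : Blk G H) (x : Fin 4 → B.T) : Finset E :=
  (B.U (x 0) ∪ B.U (x 1)) ∩ (B.U (x 2) ∪ B.U (x 3))

theorem m_sq (B : Blk G H) :
    (B.prod B).m = cent (pw B 4) (KB B) (fun x => (x 0, x 1)) :=
  cent_push (push_e22 B)
    (fun x : (B.T × B.T) × (B.T × B.T) => (B.U x.1.1 ∪ B.U x.1.2) ∩ (B.U x.2.1 ∪ B.U x.2.2))
    (fun x : (B.T × B.T) × (B.T × B.T) => x.1)

theorem k_sq (B : Blk G H) : (B.prod B).k = ecard (pw B 4) (KB B) :=
  (push_e22 B).ecard
    (fun x : (B.T × B.T) × (B.T × B.T) => (B.U x.1.1 ∪ B.U x.1.2) ∩ (B.U x.2.1 ∪ B.U x.2.2))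

theorem ineq6 (B : Blk G H) :
    cent (pw B 4) (fun x => (KK B 2 0 x, KK B 2 1 x)) (fun x => (x 0, x 1))
      + cent (pw B 4) (fun x => (KK B 3 0 x, KK B 3 1 x)) (fun x => (x 0, x 1, x 2))
      ≤ (B.prod B).m + Real.log 4 * (B.prod B).k := by
  have hP := pw_isProb B 4
  -- b ≤ cent (K30,K31) ((K20,K21),(x0,x1))
  have h1 : cent (pw B 4) (fun x => (KK B 3 0 x, KK B 3 1 x)) (fun x => (x 0, x 1, x 2))
      ≤ cent (pw B 4) (fun x => (KK B 3 0 x, KK B 3 1 x))
        (fun x => ((KK B 2 0 x, KK B 2 1 x), (x 0, x 1))) := by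
    apply cent_anti hP
    intro ω ω' h
    simp only [Prod.mk.injEq] at h ⊢
    obtain ⟨h0, h1, h2⟩ := h
    exact ⟨⟨KK_congr B 2 0 h2 h0, KK_congr B 2 1 h2 h1⟩, h0, h1⟩
  have h2 := cent_chain (P := pw B 4) (fun x => (KK B 2 0 x, KK B 2 1 x))
    (fun x => (KK B 3 0 x, KK B 3 1 x)) (fun x => (x 0, x 1))
  -- all four given (x0,x1) ≤ (KB, A, A') given (x0,x1)
  have h3 : cent (pw B 4) (fun x => ((KK B 2 0 x, KK B 2 1 x), (KK B 3 0 x, KK B 3 1 x)))
      (fun x => (x 0, x 1))
      ≤ cent (pw B 4) (fun x => (KB B x, (B.U (x 2) ∩ KB B x, B.U (x 3) ∩ KB B x)))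
        (fun x => (x 0, x 1)) := by
    apply cent_mono hP
    intro ω ω' hY hX
    simp only [Prod.mk.injEq] at hY hX ⊢
    obtain ⟨y0, y1⟩ := hY
    obtain ⟨x0, x1, x2⟩ := hX
    have key : ∀ (i : Fin 4) (x : Fin 4 → B.T), (i = 2 ∨ i = 3) →
        KK B i 0 x = (B.U (x i) ∩ KB B x) ∩ B.U (x 0) ∧
        KK B i 1 x = (B.U (x i) ∩ KB B x) ∩ B.U (x 1) := by
      intro i x hi
      unfold KK KB
      constructor
      · ext e
        simp only [Finset.mem_inter, Finset.mem_union]
        rcases hi with rfl | rfl <;> tauto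
      · ext e
        simp only [Finset.mem_inter, Finset.mem_union]
        rcases hi with rfl | rfl <;> tauto
    rw [(key 2 ω' (Or.inl rfl)).1, (key 2 ω' (Or.inl rfl)).2, (key 3 ω' (Or.inr rfl)).1,
      (key 3 ω' (Or.inr rfl)).2, (key 2 ω (Or.inl rfl)).1, (key 2 ω (Or.inl rfl)).2,
      (key 3 ω (Or.inr rfl)).1, (key 3 ω (Or.inr rfl)).2, x1, x2, y0, y1]
    exact ⟨⟨rfl, rfl⟩, rfl, rfl⟩
  have h4 := cent_chain (P := pw B 4) (KB B)
    (fun x => (B.U (x 2) ∩ KB B x, B.U (x 3) ∩ KB B x)) (fun x => (x 0, x 1))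
  have h5 := cent_subadd hP (fun x => B.U (x 2) ∩ KB B x) (fun x => B.U (x 3) ∩ KB B x)
    (fun x => (KB B x, (x 0, x 1)))
  have h6 := cent_mark hP (fun x => (KB B x, (x 0, x 1))) (KB B) (fun x => B.U (x 2) ∩ KB B x)
    (by intro ω ω' h; simp only [Prod.mk.injEq] at h; exact h.1)
    (fun ω => Finset.inter_subset_right)
  have h7 := cent_mark hP (fun x => (KB B x, (x 0, x 1))) (KB B) (fun x => B.U (x 3) ∩ KB B x)
    (by intro ω ω' h; simp only [Prod.mk.injEq] at h; exact h.1)
    (fun ω => Finset.inter_subset_right)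
  have h8 : ∑ ω, pw B 4 ω * ((KB B ω).card : ℝ) = (B.prod B).k := by
    rw [k_sq]; rfl
  rw [h8] at h6 h7
  have h9 : Real.log 4 = 2 * Real.log 2 := by
    rw [show (4 : ℝ) = 2 ^ 2 by norm_num, Real.log_pow]; norm_num
  rw [m_sq, h9]
  linarith

/-- **The 4-block Shannon inequalities.** -/
theorem chain {l lam rho Ψ : ℝ} (hlr : 0 < lam * rho) (hg : GainStmt G H l lam rho Ψ) :
    ChainStmt G H l lam rho Ψ := by
  intro B
  have hP := pw_isProb B 4
  have hm := m_eq B
  have swap : ∀ (i j : Fin 4) {S : Type} (Y : (Fin 4 → B.T) → S),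
      cent (pw B 4) (KK B i j) Y = cent (pw B 4) (KK B j i) Y := by
    intro i j S Y
    refine cent_congr (fun _ _ => Iff.rfl) (fun ω ω' _ => ?_)
    rw [KK_comm B i j, KK_comm B i j]
  -- two elementary values
  have v210 : cent (pw B 4) (KK B 2 1) (fun x => (x 2, x 0)) = c2 B := c2_eq B 2 1 0 (by decide)
  refine ⟨(B.prod (B.prod B)).F l Ψ, B.m - c2 B, B.m - c3 B,
    cent (pw B 4) (fun x => (KK B 2 0 x, KK B 2 1 x)) (fun x => (x 0, x 1)),
    cent (pw B 4) (fun x => (KK B 3 0 x, KK B 3 1 x)) (fun x => (x 0, x 1, x 2)),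
    ?_, ?_, ?_, ?_, ?_, ?_, ?_, ?_⟩
  · -- (1)
    have h1 := gain2 hg B
    have h2 := cent_chain (P := pw B 4) (KK B 2 0) (KK B 2 1) (fun x => x 2)
    have h3 : cent (pw B 4) (KK B 2 1) (fun x => (x 2, x 0))
        ≤ cent (pw B 4) (KK B 2 1) (fun x => (KK B 2 0 x, x 2)) := by
      apply cent_anti hP
      intro ω ω' h
      simp only [Prod.mk.injEq] at h ⊢
      exact ⟨KK_congr B 2 0 h.1 h.2, h.1⟩
    have h4 := c1_eq B 2 0 (by decide)
    linarith
  · -- (2)
    have h1 := cent_subadd hP (KK B 2 0) (KK B 2 1) (fun x => (x 0, x 1))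
    have h2 : cent (pw B 4) (KK B 2 0) (fun x => (x 0, x 1)) = c2 B := by
      rw [swap 2 0, c2_eq B 0 2 1 (by decide)]
    have h3 : cent (pw B 4) (KK B 2 1) (fun x => (x 0, x 1)) = c2 B := by
      rw [swap 2 1, ← c2_eq B 1 2 0 (by decide)]
      refine cent_congr (fun ω ω' => ?_) (fun _ _ _ => Iff.rfl)
      simp only [Prod.mk.injEq]; tauto
    linarith
  · -- (3)
    have h1 := gain3 hg B
    have h2 := cent_chain (P := pw B 4) (KK B 3 0) (fun x => (KK B 3 1 x, KK B 3 2 x))
      (fun x => x 3)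
    have h3 := cent_chain (P := pw B 4) (KK B 3 1) (KK B 3 2) (fun x => (KK B 3 0 x, x 3))
    have h4 : cent (pw B 4) (KK B 3 1) (fun x => (x 3, x 0))
        ≤ cent (pw B 4) (KK B 3 1) (fun x => (KK B 3 0 x, x 3)) := by
      apply cent_anti hP
      intro ω ω' h
      simp only [Prod.mk.injEq] at h ⊢
      exact ⟨KK_congr B 3 0 h.1 h.2, h.1⟩
    have h5 : cent (pw B 4) (KK B 3 2) (fun x => (x 3, x 0, x 1))
        ≤ cent (pw B 4) (KK B 3 2) (fun x => (KK B 3 1 x, (KK B 3 0 x, x 3))) := by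
      apply cent_anti hP
      intro ω ω' h
      simp only [Prod.mk.injEq] at h ⊢
      exact ⟨KK_congr B 3 1 h.1 h.2.2, KK_congr B 3 0 h.1 h.2.1, h.1⟩
    have h6 := c1_eq B 3 0 (by decide)
    have h7 := c2_eq B 3 1 0 (by decide)
    have h8 := c3_eq B 3 2 0 1 (by decide)
    -- upper bound
    have h9 : cent (pw B 4) (fun x => (KK B 3 0 x, KK B 3 1 x, KK B 3 2 x))
        (fun x => (x 0, x 1, x 2))
        = cent (pw B 4) (fun x => ((KK B 3 0 x, KK B 3 1 x), KK B 3 2 x))
        (fun x => (x 0, x 1, x 2)) := by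
      refine cent_congr (fun _ _ => Iff.rfl) (fun ω ω' _ => ?_)
      simp only [Prod.mk.injEq]; tauto
    have h10 := cent_subadd hP (fun x => (KK B 3 0 x, KK B 3 1 x)) (KK B 3 2)
      (fun x => (x 0, x 1, x 2))
    have h11 : cent (pw B 4) (KK B 3 2) (fun x => (x 0, x 1, x 2)) = c3 B := by
      rw [swap 3 2, ← c3_eq B 2 3 0 1 (by decide)]
      refine cent_congr (fun ω ω' => ?_) (fun _ _ _ => Iff.rfl)
      simp only [Prod.mk.injEq]; tauto
    rw [h9] at h1
    have hcoef : (0 : ℝ) ≤ 1 + 3 / (lam * rho) := by positivity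
    have h12 : cent (pw B 4) (fun x => ((KK B 3 0 x, KK B 3 1 x), KK B 3 2 x))
        (fun x => (x 0, x 1, x 2))
        ≤ cent (pw B 4) (fun x => (KK B 3 0 x, KK B 3 1 x)) (fun x => (x 0, x 1, x 2)) + c3 B := by
      rw [← h11]; exact h10
    have h13 := mul_le_mul_of_nonneg_left h12 hcoef
    have h14 : c1 B + c2 B + c3 B
        ≤ cent (pw B 4) (fun x => (KK B 3 0 x, KK B 3 1 x, KK B 3 2 x)) (fun x => x 3) := by
      linarith
    have h15 : 3 * B.m - (B.m - c2 B) - (B.m - c3 B) = c1 B + c2 B + c3 B := by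
      rw [hm]; ring
    rw [h15]
    have h16 : B.m - (B.m - c3 B) = c3 B := by ring
    rw [h16]
    linarith [h1, h13, h14]
  · -- (4)
    have h1 := cent_subadd hP (KK B 3 0) (KK B 3 1) (fun x => (x 0, x 1, x 2))
    have h2 : cent (pw B 4) (KK B 3 0) (fun x => (x 0, x 1, x 2)) = c3 B := by
      rw [swap 3 0, c3_eq B 0 3 1 2 (by decide)]
    have h3 : cent (pw B 4) (KK B 3 1) (fun x => (x 0, x 1, x 2)) = c3 B := by
      rw [swap 3 1, ← c3_eq B 1 3 0 2 (by decide)]
      refine cent_congr (fun ω ω' => ?_) (fun _ _ _ => Iff.rfl)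
      simp only [Prod.mk.injEq]; tauto
    linarith
  · -- 0 ≤ t1
    have h1 : cent (pw B 4) (KK B 0 1) (fun x => (x 0, x 2))
        ≤ cent (pw B 4) (KK B 0 1) (fun x => x 0) := by
      apply cent_anti hP
      intro ω ω' h
      simp only [Prod.mk.injEq] at h
      exact h.1
    have h2 := c1_eq B 0 1 (by decide)
    have h3 := c2_eq B 0 1 2 (by decide)
    linarith
  · -- t1 ≤ t2
    have h1 : cent (pw B 4) (KK B 0 1) (fun x => (x 0, x 2, x 3))
        ≤ cent (pw B 4) (KK B 0 1) (fun x => (x 0, x 2)) := by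
      apply cent_anti hP
      intro ω ω' h
      simp only [Prod.mk.injEq] at h ⊢
      exact ⟨h.1, h.2.1⟩
    have h2 := c2_eq B 0 1 2 (by decide)
    have h3 := c3_eq B 0 1 2 3 (by decide)
    linarith
  · -- (6)
    exact ineq6 B
  · -- (9)
    rw [hm]
    exact gain1 hg B

end blocks

end Crest.Agent.R055.Ch
end

-- ▼ part R055/SparseGain
section

/-!
# R055.SparseGain: inequality (7), the sparse gain bound
-/

set_option autoImplicit false
set_option linter.unusedSectionVars false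
open Finset Real
open scoped Pointwise

namespace Crest.Agent.R055
namespace SG

variable {G : Type} [Group G] [Fintype G] {E : Type} [Fintype E] [DecidableEq E]
    [MulAction G E] {H : Finset E}

lemma push_fst_prod (B B' : Blk G H) :
    push (fun x : B.T × B'.T => x.1) (B.prod B').μ = B.μ := by
  funext t
  have h : push (fun x : B.T × B'.T => x.1) (B.prod B').μ t = ∑ b, B.μ t * B'.μ b :=
    push_fst (fun x : B.T × B'.T => B.μ x.1 * B'.μ x.2) t
  rw [h, ← Finset.mul_sum, B'.prob.sum_eq, mul_one]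


lemma ent_law_fst (B B' : Blk G H) :
    ent (B.prod B').law (fun x : B.T × B'.T => x.1) = hl (symm G B.μ) := by
  have h : push (fun x : B.T × B'.T => x.1) (symm G (B.prod B').μ) =
      symm G (push (fun x : B.T × B'.T => x.1) (B.prod B').μ) :=
    push_symm G (S := B.T × B'.T) (fun g s => rfl) _
  rw [push_fst_prod] at h
  rw [← h]
  exact ent_eq_hl (S := B.T × B'.T) _ _


/-- the law of two copies of the same block is invariant under the swap -/
lemma push_swap_law (B : Blk G H) :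
    push (fun x : B.T × B.T => (x.2, x.1)) (B.prod B).law = (B.prod B).law := by
  have h : push (fun x : B.T × B.T => (x.2, x.1)) (symm G (B.prod B).μ) =
      symm G (push (fun x : B.T × B.T => (x.2, x.1)) (B.prod B).μ) :=
    push_symm G (S := B.T × B.T) (S' := B.T × B.T) (fun g s => rfl) _
  have h2 : push (fun x : B.T × B.T => (x.2, x.1)) (B.prod B).μ = (B.prod B).μ := by
    classical
    funext y
    unfold push
    rw [Finset.sum_eq_single ((y.2, y.1) : B.T × B.T)]
    · rw [if_pos rfl]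
      exact mul_comm (B.μ y.2) (B.μ y.1)
    · intro b _ hb
      rw [if_neg]
      intro hby
      apply hb
      rw [← hby]
    · simp
  rw [h2] at h
  exact h

lemma ent_law_swap (B : Blk G H) {R : Type*} [Fintype R] (X : B.T × B.T → R) :
    ent (B.prod B).law X = ent (B.prod B).law (fun x : B.T × B.T => X (x.2, x.1)) := by
  conv_lhs => rw [← push_swap_law B]
  exact ent_push (S := B.T × B.T) (S' := B.T × B.T) _ _ X

lemma ecard_law (B B' : Blk G H) :
    ecard (B.prod B').law (fun x : B.T × B'.T => B.U x.1 ∩ B'.U x.2) =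
      ecard (B.prod B').μ (fun x : B.T × B'.T => B.U x.1 ∩ B'.U x.2) := by
  unfold ecard Blk.law
  refine sum_symm_mul G (S := B.T × B'.T) _
    (fun x : B.T × B'.T => ((B.U x.1 ∩ B'.U x.2).card : ℝ)) (fun g x => ?_)
  have h : B.U (g • x).1 ∩ B'.U (g • x).2 = g • (B.U x.1 ∩ B'.U x.2) := by
    change B.U (g • x.1) ∩ B'.U (g • x.2) = _
    rw [B.equi, B'.equi, Finset.smul_finset_inter]
  rw [h, Finset.card_smul_finset]

lemma ecard_union (B B' : Blk G H) :
    ecard (B.prod B').μ (B.prod B').U = ecard B.μ B.U + ecard B'.μ B'.U -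
      ecard (B.prod B').μ (fun x : B.T × B'.T => B.U x.1 ∩ B'.U x.2) := by
  have h1 : ∀ x : B.T × B'.T, (((B.U x.1 ∪ B'.U x.2).card : ℝ)) =
      ((B.U x.1).card : ℝ) + ((B'.U x.2).card : ℝ) - ((B.U x.1 ∩ B'.U x.2).card : ℝ) := by
    intro x
    have := Finset.card_union_add_card_inter (B.U x.1) (B'.U x.2)
    rw [eq_sub_iff_add_eq]
    exact_mod_cast this
  have e1 : ∑ x : B.T × B'.T, B.μ x.1 * B'.μ x.2 * ((B.U x.1).card : ℝ) = ecard B.μ B.U := by
    rw [Fintype.sum_prod_type]
    unfold ecard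
    refine Finset.sum_congr rfl fun a _ => ?_
    simp only
    rw [← Finset.sum_mul, ← Finset.mul_sum, B'.prob.sum_eq, mul_one]
  have e2 : ∑ x : B.T × B'.T, B.μ x.1 * B'.μ x.2 * ((B'.U x.2).card : ℝ) = ecard B'.μ B'.U := by
    rw [Fintype.sum_prod_type_right]
    unfold ecard
    refine Finset.sum_congr rfl fun a _ => ?_
    simp only
    rw [← Finset.sum_mul, ← Finset.sum_mul, B.prob.sum_eq, one_mul]
  have e3 : ecard (B.prod B').μ (B.prod B').U = ∑ x : B.T × B'.T, B.μ x.1 * B'.μ x.2 *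
      (((B.U x.1 ∪ B'.U x.2).card : ℝ)) := rfl
  have e4 : ecard (B.prod B').μ (fun x : B.T × B'.T => B.U x.1 ∩ B'.U x.2) =
    ∑ x : B.T × B'.T, B.μ x.1 * B'.μ x.2 * (((B.U x.1 ∩ B'.U x.2).card : ℝ)) := rfl
  rw [e3, e4, ← e1, ← e2, ← Finset.sum_add_distrib, ← Finset.sum_sub_distrib]
  refine Finset.sum_congr rfl fun x _ => ?_
  rw [h1 x]
  ring

/-- the gain of two copies of a block -/
lemma gain_eq (B : Blk G H) (l Ψ : ℝ) : 2 * B.F l Ψ - (B.prod B).F l Ψ =
    2 * hl (symm G B.μ) - hl (B.prod B).law - l * B.k + Ψ := by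
  have h1 : hl (B.prod B).μ = hl B.μ + hl B.μ := hl_mul B.prob.sum_eq B.prob.sum_eq
  have h2 := ecard_union B B
  have h3 : B.k = ecard (B.prod B).μ (fun x : B.T × B.T => B.U x.1 ∩ B.U x.2) := ecard_law B B
  unfold Blk.F Dv
  rw [h1, h2, h3]
  have h4 : (B.prod B).law = symm G (B.prod B).μ := rfl
  rw [h4]
  ring

theorem sparseGainStmt (H : Finset E) (p l Ψ : ℝ) (hp : 0 < p)
    (hN : ∀ A : Finset E, A ⊆ H →
      (1 : ℝ) / 2 ≤ ((Finset.univ.image (fun g : G => A.image (fun x => g • x))).card : ℝ)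
        * p ^ A.card) : SparseGainStmt G H l p Ψ := by
  intro B
  rw [gain_eq]
  obtain ⟨P, hPdef⟩ : ∃ P : B.T × B.T → ℝ, P = (B.prod B).law := ⟨_, rfl⟩
  have hprob : IsProb P := by
    rw [hPdef]
    exact isProb_symm G (B.prod B).prob
  have hK : Real.log (1 / p) * B.k - Real.log 2 ≤
      ent P (fun x : B.T × B.T => B.U x.1 ∩ B.U x.2) := by
    rw [hPdef]
    exact Blk.ent_inter_ge B B p hp hN
  have hsub := ent_submod hprob (fun x : B.T × B.T => x.1) (fun x : B.T × B.T => x.2)
    (fun x : B.T × B.T => B.U x.1 ∩ B.U x.2)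
  have e0 : hl (B.prod B).law = hl P := by rw [hPdef]; rfl
  have e1 : ent P (fun x : B.T × B.T => (x.1, x.2, B.U x.1 ∩ B.U x.2)) = hl P := by
    rw [← ent_id P]
    apply ent_congr
    intro x y
    constructor
    · intro h
      simp only [Prod.mk.injEq] at h
      exact Prod.ext h.1 h.2.1
    · intro h
      rw [h]
  have e2 : ent P (fun x : B.T × B.T => (x.1, B.U x.1 ∩ B.U x.2)) =
      B.m + hl (symm G B.μ) := by
    have h1 : ent P (fun x : B.T × B.T => (x.1, B.U x.1 ∩ B.U x.2)) =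
        ent P (fun x : B.T × B.T => (B.U x.1 ∩ B.U x.2, x.1)) := by
      apply ent_congr
      intro x y
      simp only [Prod.mk.injEq]
      tauto
    have h2 : ent P (fun x : B.T × B.T => x.1) = hl (symm G B.μ) := by
      rw [hPdef]; exact ent_law_fst B B
    have h3 : B.m = ent P (fun x : B.T × B.T => (B.U x.1 ∩ B.U x.2, x.1)) -
      ent P (fun x : B.T × B.T => x.1) := by rw [hPdef]; rfl
    rw [h1, h3, h2]
    ring
  have e3 : ent P (fun x : B.T × B.T => (x.2, B.U x.1 ∩ B.U x.2)) =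
      B.m + hl (symm G B.μ) := by
    rw [← e2]
    have h1 : ent P (fun x : B.T × B.T => (x.2, B.U x.1 ∩ B.U x.2)) =
        ent P (fun x : B.T × B.T => (x.1, B.U x.2 ∩ B.U x.1)) := by
      rw [hPdef]
      exact ent_law_swap B (fun x : B.T × B.T => (x.2, B.U x.1 ∩ B.U x.2))
    rw [h1]
    apply ent_congr
    intro x y
    simp only [Prod.mk.injEq]
    rw [Finset.inter_comm (B.U x.2), Finset.inter_comm (B.U y.2)]
  rw [e1, e2, e3] at hsub
  rw [e0]
  nlinarith [hK, hsub]

end SG

end Crest.Agent.R055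
end

-- ▼ part R055/Bounds

/-!
# R055.Bounds: the elementary bounds `BoundsStmt` and the base block (helper919)
-/

set_option autoImplicit false
set_option linter.unusedSectionVars false
open Finset Real
open scoped Pointwise

namespace Crest.Agent.R055

namespace Bd

lemma ecard_nonneg {S : Type*} [Fintype S] {E : Type} {w : S → ℝ} (hw : ∀ s, 0 ≤ w s)
    (U : S → Finset E) : 0 ≤ ecard w U :=
  Finset.sum_nonneg fun s _ => mul_nonneg (hw s) (Nat.cast_nonneg _)

/-- entropy is at most the logarithm of the number of values -/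
lemma hl_le_log_card {S : Type*} [Fintype S] {w : S → ℝ} (hw : IsProb w) :
    hl w ≤ Real.log (Fintype.card S) := by
  have h := Sparse.entropy_le_log_card w hw.nonneg hw.sum_eq Finset.univ
    (fun a _ => Finset.mem_univ a)
  simpa [hl, Finset.card_univ] using h

lemma ent_le_log_card {Ω S : Type*} [Fintype Ω] [Fintype S] {P : Ω → ℝ} (hP : IsProb P)
    (X : Ω → S) : ent P X ≤ Real.log (Fintype.card S) := by
  rw [ent_eq_hl]
  exact hl_le_log_card (isProb_push hP)

lemma hl_unifG (G : Type*) [Group G] [Fintype G] :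
    hl (unifG G) = Real.log (Fintype.card G) := by
  have hG : (Fintype.card G : ℝ) ≠ 0 := by exact_mod_cast Fintype.card_ne_zero
  unfold hl unifG
  simp only [Finset.sum_const, Finset.card_univ, nsmul_eq_mul, Real.negMulLog, one_div,
    Real.log_inv]
  field_simp

/-- `I(g ; gZ) ≤ log |G|` -/
lemma Dv_le_log_card (G : Type*) [Group G] [Fintype G] {S : Type*} [Fintype S] [MulAction G S]
    {w : S → ℝ} (hw : IsProb w) : Dv G w ≤ Real.log (Fintype.card G) := by
  have hP : IsProb (fun x : G × S => unifG G x.1 * w x.2) := by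
    constructor
    · intro x; exact mul_nonneg (unifG_nonneg G _) (hw.nonneg _)
    · rw [Fintype.sum_prod_type]
      simp only
      simp_rw [← Finset.mul_sum, hw.sum_eq, mul_one]
      exact sum_unifG G
  have h1 : hl (symm G w) ≤ hl (unifG G) + hl w := by
    rw [symm_eq_push, ← ent_eq_hl, ← hl_mul (sum_unifG G) hw.sum_eq,
      ← ent_id (fun x : G × S => unifG G x.1 * w x.2)]
    apply ent_mono hP.nonneg
    intro x y h
    rw [h]
  rw [hl_unifG] at h1
  unfold Dv
  linarith

/-- energy of a push-forward -/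
lemma energy_push {E : Type} [Fintype E] [DecidableEq E] {T : Type} [Fintype T]
    (U : T → Finset E) (μ : T → ℝ) :
    energy (push U μ) = ∑ x : T × T, μ x.1 * μ x.2 * ((U x.1 ∩ U x.2).card : ℝ) := by
  classical
  have h1 : ∀ e : E, (∑ A, if e ∈ A then push U μ A else 0)
      = ∑ t, μ t * (if e ∈ U t then 1 else 0) := by
    intro e
    rw [← sum_push_mul U μ (fun A => if e ∈ A then (1 : ℝ) else 0)]
    apply Finset.sum_congr rfl
    intro A _
    split_ifs <;> simp
  unfold energy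
  simp_rw [h1]
  rw [Fintype.sum_prod_type]
  have h2 : ∀ t t' : T, ((U t ∩ U t').card : ℝ)
      = ∑ e : E, (if e ∈ U t then (1 : ℝ) else 0) * (if e ∈ U t' then 1 else 0) := by
    intro t t'
    rw [Finset.card_eq_sum_ones, Nat.cast_sum]
    rw [← Finset.sum_filter_add_sum_filter_not Finset.univ (fun e => e ∈ U t ∩ U t')]
    have h3 : Finset.univ.filter (fun e => e ∈ U t ∩ U t') = U t ∩ U t' := by
      ext e; simp
    rw [h3]
    have h4 : ∑ e ∈ U t ∩ U t', (if e ∈ U t then (1 : ℝ) else 0) * (if e ∈ U t' then 1 else 0)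
        = ∑ e ∈ U t ∩ U t', ((1 : ℕ) : ℝ) := by
      apply Finset.sum_congr rfl
      intro e he
      rw [Finset.mem_inter] at he
      simp [he.1, he.2]
    have h5 : ∑ e ∈ Finset.univ.filter (fun e => ¬ e ∈ U t ∩ U t'),
        (if e ∈ U t then (1 : ℝ) else 0) * (if e ∈ U t' then 1 else 0) = 0 := by
      apply Finset.sum_eq_zero
      intro e he
      rw [Finset.mem_filter, Finset.mem_inter] at he
      by_cases ha : e ∈ U t
      · have hb : e ∉ U t' := fun hb => he.2 ⟨ha, hb⟩
        simp [hb]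
      · simp [ha]
    rw [h4, h5, add_zero]
  simp_rw [h2, sq, Finset.sum_mul_sum, Finset.mul_sum]
  rw [Finset.sum_comm]
  apply Finset.sum_congr rfl
  intro t _
  rw [Finset.sum_comm]
  apply Finset.sum_congr rfl
  intro t' _
  apply Finset.sum_congr rfl
  intro e _
  ring

end Bd

section
variable {G : Type} [Group G] [Fintype G] {E : Type} [Fintype E] [DecidableEq E]
    [MulAction G E] {H : Finset E}

lemma Bd.k_eq (B : Blk G H) : B.k = energy (push B.U B.μ) := by
  rw [Bd.energy_push]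
  unfold Blk.k Blk.law ecard
  rw [sum_symm_mul G (B.prod B).μ (fun x : B.T × B.T => ((B.U x.1 ∩ B.U x.2).card : ℝ))]
  · rfl
  · intro g x
    change ((B.U (g • x.1) ∩ B.U (g • x.2)).card : ℝ) = _
    rw [B.equi, B.equi, ← Finset.smul_finset_inter, Finset.card_smul_finset]

lemma Bd.isLaw_push (B : Blk G H) : IsLaw H (push B.U B.μ) := by
  classical
  refine ⟨isProb_push B.prob, fun A hA => ?_⟩
  by_contra hcon
  apply hA
  unfold push
  apply Finset.sum_eq_zero
  intro t _
  split_ifs with h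
  · by_contra hne
    exact hcon (h ▸ B.supp t hne)
  · rfl

lemma Bd.m_nonneg (B : Blk G H) : 0 ≤ B.m := by
  have h := ent_mono (P := (B.prod B).law) (symm_nonneg G (B.prod B).prob.nonneg)
    (X := fun x : (B.prod B).T => (B.U x.1 ∩ B.U x.2, x.1)) (Y := fun x : (B.prod B).T => x.1)
    (fun x y h => (Prod.mk.inj h).2)
  exact sub_nonneg.mpr h

lemma Bd.m_le (B : Blk G H) : B.m ≤ Fintype.card E * Real.log 2 := by
  have hP : IsProb (B.prod B).law := isProb_symm G (B.prod B).prob
  have h1 : ent (B.prod B).law (fun x : (B.prod B).T => (B.U x.1 ∩ B.U x.2, x.1)) ≤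
      ent (B.prod B).law (fun x : (B.prod B).T => B.U x.1 ∩ B.U x.2)
        + ent (B.prod B).law (fun x : (B.prod B).T => x.1) :=
    ent_pair_le hP _ _
  have h2 : ent (B.prod B).law (fun x : (B.prod B).T => B.U x.1 ∩ B.U x.2)
      ≤ Real.log (Fintype.card (Finset E)) := Bd.ent_le_log_card hP _
  have h3 : Real.log (Fintype.card (Finset E)) = Fintype.card E * Real.log 2 := by
    rw [Fintype.card_finset]
    push_cast
    rw [Real.log_pow]
  rw [h3] at h2
  have h4 : ent (B.prod B).law (fun x : (B.prod B).T => (B.U x.1 ∩ B.U x.2, x.1))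
      - ent (B.prod B).law (fun x : (B.prod B).T => x.1) ≤ Fintype.card E * Real.log 2 := by
    linarith
  exact h4

end

/-- the module `BoundsStmt` -/
theorem bounds (G E : Type) [Group G] [Fintype G] [Fintype E] [DecidableEq E] [MulAction G E]
    (H : Finset E) (l lam Ψ : ℝ) (hl0 : 0 ≤ l) (hext : Extremal G H l lam Ψ) :
    BoundsStmt G H l lam Ψ := by
  intro B
  have hk : lam * B.k ≤ B.F l Ψ := by
    rw [Bd.k_eq]
    have h := hext _ (Bd.isLaw_push B)
    have h2 : Dv G (push B.U B.μ) ≤ Dv G B.μ := Dv_push_le G B.equi B.prob.nonneg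
    rw [ecard_push] at h
    unfold Blk.F
    have h3 : ecard B.μ (fun s => B.U s) = ecard B.μ B.U := rfl
    linarith
  refine ⟨hk, ?_, Bd.m_nonneg B, Bd.m_le B, ?_⟩
  · unfold Blk.k
    exact Bd.ecard_nonneg (symm_nonneg G (B.prod B).prob.nonneg) _
  · unfold Blk.F
    have h1 := Bd.Dv_le_log_card G B.prob
    have h2 : 0 ≤ ecard B.μ B.U := Bd.ecard_nonneg B.prob.nonneg _
    nlinarith

/-- the base block -/
theorem base_block (G E : Type) [Group G] [Fintype G] [Fintype E] [DecidableEq E]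
    [MulAction G E] (H : Finset E) (l lam Ψ : ℝ) (w : Finset E → ℝ) (hw : IsLaw H w)
    (heq : lam * energy w = Dv G w - l * ecard w (fun A => A) + Ψ) :
    ∃ B₀ : Blk G H, B₀.F l Ψ = lam * B₀.k := by
  refine ⟨{ T := Finset E, μ := w, prob := hw.prob, U := fun A => A,
            equi := fun g t => rfl, supp := hw.supp }, ?_⟩
  rw [Bd.k_eq]
  unfold Blk.F
  simp only
  rw [push_id, heq]

end Crest.Agent.R055
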